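import Vale.Agent.P078.TypeIII.Rule.Defs
import Vale.Agent.P078.TypeIII.Reg.Sign
import Vale.Agent.P078.TypeIII.Reg.Basic

/-!
# At least half of the colours pass the test under the margin, so allowed colours exist
-/

namespace Vale.Agent.P078.TypeIII.Reg

open Vale.Agent.P078.Mss2
open Finset Matrix

universe u

/-- If the mean of a nonnegative function is at most `b / k`, at most `card / k` points exceed
`b`. -/
lemma card_ge_mean_le {α : Type*} [Fintype α] (f : α → ℝ) (S : Finset α) {b k : ℝ} (hb : 0 < b)
    (hk : 0 < k) (hf : ∀ a, 0 ≤ f a) (hS : ∀ a ∈ S, b ≤ f a)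
    (hsum : ∑ a, f a ≤ Fintype.card α * (b / k)) : (S.card : ℝ) * k ≤ Fintype.card α := by
  have h := (nsmul_eq_mul S.card b ▸ S.card_nsmul_le_sum f b hS).trans
    ((sum_le_sum_of_subset_of_nonneg (subset_univ S) fun a _ _ => hf a).trans hsum)
  rw [mul_div_assoc', le_div_iff₀ hk] at h
  exact le_of_mul_le_mul_left (by linarith) hb

lemma ruleY0_pos {p : Prm} (h : p.Ok) : 0 < p.Y0 := by
  have : (0 : ℝ) < p.r := by exact_mod_cast lt_of_lt_of_le (by norm_num) h.r_ge
  rw [Prm.Y0]; positivity

lemma ruleG_pos {p : Prm} (h : p.Ok) : 0 < p.g := by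
  have : (0 : ℝ) < p.J := by exact_mod_cast lt_of_lt_of_le (by norm_num) h.J_ge
  exact div_pos (ruleY0_pos h) this

lemma ruleLev_pos {p : Prm} (h : p.Ok) (j : ℕ) : 0 < p.lev j := by
  have := ruleY0_pos h
  have := ruleG_pos h
  rw [Prm.lev]; positivity

theorem count : CountGoal.{u} := by
  classical
  intro p hp V _ x nb hx hband j st v _ hst hM G hG
  have hr9 : (9 : ℕ) ≤ p.r := hp.r_ge
  have : NeZero p.r := ⟨by omega⟩
  have hY := ruleY0_pos hp
  have hg := ruleG_pos hp
  have hlam := hp.lam_pos
  have hL := ruleLev_pos hp j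
  set F := ball p nb v st with hF
  set col := colOf st with hcol
  set y := ylev p (p.lev j) st with hy
  have hv : v ∈ F := by
    simp only [hF, ball, alive, mem_filter, hst, ne_eq, reduceCtorEq, not_false_eq_true, and_true]
    exact mem_nball_self hband p.R v
  have hcv : col v = none := by simp [hcol, colOf, hst]
  have hyv : y v = p.lev j := by simp [hy, ylev, colOf, hst]
  -- the facts for one sign
  have key : ∀ b, (∀ H ⊆ F, (p.g / 8) ^ H.card ≤ P (sgn b x) col H y) ∧
      ((univ.filter fun c => 7 * p.lev j <
          aval (sgn b x) (Function.update col v (some c)) F v y).card : ℝ) * 7 ≤ p.r ∧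
      ((univ.filter fun c => 3 / 4 * (p.lam * p.Y0) <
          dval p (sgn b x) (Function.update col v (some c)) F v y).card : ℝ) * 12 ≤ p.r := by
    intro b
    have hk := kern_sgn hx b
    obtain ⟨hval, hd⟩ := hM b
    have hvy : Valid (sgn b x) col F y :=
      validMono _ col F F _ y hk hval subset_rfl fun u _ => by simp only [hy]; linarith
    obtain ⟨hve, hlt⟩ := (validStep _ col F v y hk hv).1 hvy
    have hveg : Valid (sgn b x) col (F.erase v) fun u => y u + p.g :=
      validMono _ col _ _ y _ hk hve subset_rfl fun u _ => by linarith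
    have hve' : ∀ c, Valid (sgn b x) (Function.update col v (some c)) (F.erase v) y := by
      intro c H hH
      rw [pCongr (sgn b x) _ col H y y (fun u hu => Function.update_of_ne
        (ne_of_mem_erase (hH hu)) _ _) fun _ _ => rfl]
      exact hve H hH
    have hs1 := (pAvg _ col F v y hk hv hcv).2 (hve _ subset_rfl).ne'
    have hs2 := (pAvg _ col F v _ hk hv hcv).2 (hveg _ subset_rfl).ne'
    refine ⟨validQuant _ col F y (p.g / 8) hk (by linarith) hval, ?_, ?_⟩
    · have := card_ge_mean_le (fun c => aval (sgn b x) (Function.update col v (some c)) F v y)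
        (univ.filter fun c => 7 * p.lev j <
          aval (sgn b x) (Function.update col v (some c)) F v y) (b := 7 * p.lev j) (k := 7)
        (by linarith) (by norm_num)
        (fun c => (avalMono _ _ F F v y y hk hv subset_rfl (hve' c) fun _ _ => le_rfl).1)
        (fun c hc => (mem_filter.1 hc).2.le) ?_
      · simpa using this
      · rw [hs1, Fintype.card_fin]
        exact mul_le_mul_of_nonneg_left (by linarith) (Nat.cast_nonneg _)
    · have := card_ge_mean_le (fun c => dval p (sgn b x) (Function.update col v (some c)) F v y)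
        (univ.filter fun c => 3 / 4 * (p.lam * p.Y0) <
          dval p (sgn b x) (Function.update col v (some c)) F v y)
        (b := 3 / 4 * (p.lam * p.Y0)) (k := 12) (by positivity) (by norm_num)
        (fun c => sub_nonneg.2 (avalMono _ _ F F v y (fun u => y u + p.g) hk hv subset_rfl (hve' c)
          fun u _ => by linarith).2)
        (fun c hc => (mem_filter.1 hc).2.le) ?_
      · simpa using this
      · simp only [dval, sum_sub_distrib, hs1, hs2, Fintype.card_fin, ← mul_sub]
        refine mul_le_mul_of_nonneg_left (le_trans hd ?_) (Nat.cast_nonneg _)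
        exact le_of_eq (by ring)
  -- counting
  set bad := fun b => (univ.filter fun c => 7 * p.lev j <
      aval (sgn b x) (Function.update col v (some c)) F v y) ∪
    univ.filter fun c => 3 / 4 * (p.lam * p.Y0) <
      dval p (sgn b x) (Function.update col v (some c)) F v y
  have hcov : univ \ G ⊆ bad true ∪ bad false := by
    intro c hc
    by_contra hn
    refine (mem_sdiff.1 hc).2 (hG c fun b => ⟨(key b).1, ?_⟩)
    simp only [bad, mem_union, mem_filter, mem_univ, true_and, not_or, not_lt] at hn
    cases b
    · exact ⟨hn.2.1, hn.2.2⟩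
    · exact ⟨hn.1.1, hn.1.2⟩
  have hcard : ((univ \ G).card : ℝ) ≤ (bad true).card + (bad false).card := by
    exact_mod_cast (card_le_card hcov).trans (card_union_le _ _)
  have hb : ∀ b, ((bad b).card : ℝ) ≤ (p.r : ℝ) / 7 + (p.r : ℝ) / 12 := fun b => by
    have h := (key b).2
    refine le_trans (Nat.cast_le.2 (card_union_le _ _)) ?_
    push_cast
    linarith [h.1, h.2]
  rw [card_univ_sdiff, Fintype.card_fin, Nat.cast_sub (by simpa using card_le_univ G)] at hcard
  have hr0 : (0 : ℝ) ≤ p.r := Nat.cast_nonneg _
  have : (p.r : ℝ) ≤ ((2 * G.card : ℕ) : ℝ) := by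
    push_cast; linarith [hb true, hb false]
  exact_mod_cast this

theorem oracle : OracleGoal.{u} := by
  classical
  intro p hp V _ x nb hx hband
  refine ⟨fun j st v =>
    if p.r ≤ 2 * (univ.filter fun c => WeakTest p x nb j st v c).card then
      univ.filter fun c => WeakTest p x nb j st v c else ∅, ?_, ?_, ?_⟩
  · intro j st v _ c hc
    split_ifs at hc
    · exact (mem_filter.1 hc).2
    · simp at hc
  · intro j st v hne
    split_ifs at hne ⊢ with h
    · exact h
    · simp at hne
  · intro j st v hj hst hM
    have h := count p hp x nb hx hband j st v hj hst hM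
      (univ.filter fun c => WeakTest p x nb j st v c) fun c hc => by
        refine mem_filter.2 ⟨mem_univ c, fun b => ⟨?_, ?_, ?_⟩⟩
        · intro H hH
          exact lt_of_lt_of_le (pow_pos (by linarith [ruleG_pos hp]) _) ((hc b).1 H hH)
        · linarith [(hc b).2.1, ruleLev_pos hp j]
        · nlinarith [(hc b).2.2, ruleY0_pos hp, hp.lam_pos]
    rw [if_pos h]
    exact card_pos.1 (by have := hp.r_ge; omega)

end Vale.Agent.P078.TypeIII.Reg
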