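import Vale.Agent.P078.TypeIII.Rule.Defs
import Vale.Agent.P078.TypeIII.Reg.Basic
import Vale.Agent.P078.TypeIII.Reg.Sign

/-!
# A good final state bounds the diagonal of the powers

When every vertex is coloured, the expected determinant is the product of the minors, so validity
at the level `z` bounds the eigenvalues of every colour block. Closed walks of length `2 m` from
`ψ` stay in the ball of radius `m` and in the class of `ψ`.
-/

namespace Vale.Agent.P078.TypeIII.Regular

open Vale.Agent.P078.Transfer Vale.Agent.P078.TypeIII.Reg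
open Finset Matrix

universe u

/-- The diagonal of a power of a Hermitian matrix is bounded by the largest eigenvalue. -/
lemma pow_diag_re_le {n : Type*} [Fintype n] [DecidableEq n] {A : Matrix n n ℂ}
    (hA : A.IsHermitian) {z : ℝ} (hev : ∀ i, |hA.eigenvalues i| ≤ z) (k : ℕ) (i : n) :
    ((A ^ k) i i).re ≤ z ^ k := by
  set U : Matrix n n ℂ := (hA.eigenvectorUnitary : Matrix n n ℂ) with hU
  have hk : A ^ k = U * diagonal ((((RCLike.ofReal : ℝ → ℂ)) ∘ hA.eigenvalues) ^ k) * star U := by
    conv_lhs => rw [hA.spectral_theorem]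
    rw [← map_pow, diagonal_pow, Unitary.conjStarAlgAut_apply]
  have h1 : U * star U = 1 := Unitary.coe_mul_star_self hA.eigenvectorUnitary
  have hsum : ∑ l, Complex.normSq (U i l) = 1 := by
    have := congrArg (fun M : Matrix n n ℂ => (M i i).re) h1
    simpa [Matrix.mul_apply, Matrix.star_apply, Complex.normSq_apply] using this
  rw [hk, Matrix.mul_apply, Complex.re_sum]
  calc ∑ l, ((U * diagonal ((((RCLike.ofReal : ℝ → ℂ)) ∘ hA.eigenvalues) ^ k)) i l * star U l i).re
      = ∑ l, hA.eigenvalues l ^ k * Complex.normSq (U i l) :=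
        sum_congr rfl (fun l _ => by
          rw [Matrix.mul_diagonal, Matrix.star_apply, Pi.pow_apply, Function.comp_apply,
            mul_right_comm, Complex.star_def, Complex.mul_conj]
          simp [mul_comm, ← Complex.ofReal_pow])
    _ ≤ ∑ l, z ^ k * Complex.normSq (U i l) :=
        sum_le_sum (fun l _ => mul_le_mul_of_nonneg_right
          ((le_abs_self _).trans (by
            rw [abs_pow]
            exact pow_le_pow_left₀ (abs_nonneg _) (hev l) k)) (Complex.normSq_nonneg _))
    _ = z ^ k := by rw [← mul_sum, hsum, mul_one]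

/-- The kernel of a graph model, restricted to finite sets, is Hermitian of norm at most one. -/
lemma kern_model {K : Type u} [TopologicalSpace K] [DecidableEq K] (G : GraphModel K) :
    Kern G.x where
  herm i j := by
    have h := (G.x_bound {i, j}).1.apply ⟨i, by simp⟩ ⟨j, by simp⟩
    simpa using h
  diag := G.x_diag
  bound F := by convert G.x_bound F using 2

variable {V : Type u} [DecidableEq V] {r : ℕ}

/-- When all vertices have the colour `c`, the mixed value is the determinant. -/
lemma P_mono (x : Matrix V V ℂ) (col : V → Option (Fin r)) (W : Finset V) (t : ℝ) (c : Fin r)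
    (hW : ∀ v ∈ W, col v = some c) :
    P x col W (fun _ => t) = (Matrix.scalar {v // v ∈ W} (t : ℂ)
      - x.submatrix (Subtype.val : {v // v ∈ W} → V) Subtype.val).det.re := by
  rw [P, Mss2.mix, sum_eq_single (fun _ => c)]
  · have h1 : ∀ v : {v // v ∈ W}, Mss2.law (fun v : {v // v ∈ W} => col v.1) v c = 1 := fun v => by
      simp [Mss2.law, hW v.1 v.2]
    simp only [h1, Complex.ofReal_one, prod_const_one, one_mul, Finset.empty_union]
    refine congrArg Complex.re ?_
    rw [prod_eq_single c (fun d _ hd => by simp [Ne.symm hd, Mss2.minorMat_empty]) (by simp)]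
    refine congrArg Matrix.det (Matrix.ext (fun i j => ?_))
    simp [Mss.minorMat, Mss2.realVars, Matrix.diagonal_apply]
  · intro f _ hf
    obtain ⟨v, hv⟩ := Function.ne_iff.1 hf
    rw [prod_eq_zero (mem_univ v) (by simp [Mss2.law, hW v.1 v.2, hv]), zero_mul]
  · simp

/-- Positivity above `z` for all levels excludes eigenvalues above `z`. -/
lemma eigen_le [NeZero r] {x : Matrix V V ℂ} (hx : Kern x) {col : V → Option (Fin r)}
    {W : Finset V} {c : Fin r} (hW : ∀ v ∈ W, col v = some c) {z : ℝ}
    (hv : Valid x col W fun _ => z) {lam : ℝ}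
    (h0 : (Matrix.scalar {v // v ∈ W} (lam : ℂ)
      - x.submatrix (Subtype.val : {v // v ∈ W} → V) Subtype.val).det = 0) : lam ≤ z := by
  by_contra hlt
  push Not at hlt
  have := validMono x col W W (fun _ => z) (fun _ => lam) hx hv subset_rfl (fun _ _ => hlt.le) W
    subset_rfl
  rw [P_mono x col W lam c hW, h0, Complex.zero_re] at this
  exact lt_irrefl _ this

/-- **A good final state bounds the diagonal of the powers.** -/
theorem endBound : EndGoal.{u} := by
  intro K _ _ G r _ m col ψ z hz hψ hvalid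
  obtain ⟨c, hc⟩ := Option.isSome_iff_exists.1 hψ
  set kept : K → Fin (r + 1) := fun u => (col u).elim (Fin.last r) Fin.castSucc with hkept
  have hk : ∀ u, kept ψ = kept u ↔ col u = some c := by
    intro u
    rcases hu : col u with _ | d
    · simp [hkept, hu, hc, Fin.castSucc_ne_last]
    · simp [hkept, hu, hc, eq_comm]
  have hb : Band G.x G.nbhd :=
    ⟨(Transfer.banded G).refl, (Transfer.banded G).symm, fun _ v w h =>
      (Transfer.banded G).supp v w h⟩
  set W := (Mss2.nball G.nbhd m ψ).filter (fun u => col u = some c) with hWdef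
  have hWc : ∀ v ∈ W, col v = some c := fun v hv => (mem_filter.1 hv).2
  have hψW : ψ ∈ W := mem_filter.2 ⟨Mss2.mem_nball_self hb m ψ, hc⟩
  set A : Matrix {v // v ∈ W} {v // v ∈ W} ℂ :=
    G.x.submatrix (Subtype.val : {v // v ∈ W} → K) Subtype.val with hAdef
  have hA : A.IsHermitian := ((kern_model G).bound W).1
  have hWv : ∀ b, Valid (Reg.sgn b G.x) col W fun _ => z := fun b S hS =>
    hvalid b S (hS.trans (fun u hu => mem_filter.2
      ⟨(mem_filter.1 hu).1, by simp [(mem_filter.1 hu).2]⟩))
  have hev : ∀ i, |hA.eigenvalues i| ≤ z := by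
    intro i
    have h0 : (Matrix.scalar {v // v ∈ W} (hA.eigenvalues i : ℂ) - A).det = 0 := by
      rw [← Matrix.eval_charpoly, hA.charpoly_eq, Polynomial.eval_prod]
      exact prod_eq_zero (mem_univ i) (by simp)
    rw [abs_le']
    refine ⟨eigen_le (kern_sgn (kern_model G) true) hWc (hWv true) h0,
      eigen_le (kern_sgn (kern_model G) false) hWc (hWv false) ?_⟩
    have e : Matrix.scalar {v // v ∈ W} ((-hA.eigenvalues i : ℝ) : ℂ)
        - (Reg.sgn false G.x).submatrix (Subtype.val : {v // v ∈ W} → K) Subtype.val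
        = -(Matrix.scalar {v // v ∈ W} (hA.eigenvalues i : ℂ) - A) := by
      ext a b
      simp [Reg.sgn, hAdef, Matrix.diagonal_apply]
      split_ifs <;> ring
    rw [e, det_neg, h0, mul_zero]
  have hsupp : ∀ k χ, G.wpow kept k χ ψ ≠ 0 → χ ∈ Mss2.nball G.nbhd k ψ := by
    intro k
    induction k with
    | zero =>
      intro χ h
      by_cases he : χ = ψ
      · simp [Mss2.nball, he]
      · simp [GraphModel.wpow, he] at h
    | succ k ih =>
      intro χ h
      obtain ⟨θ, hθ, hne⟩ := exists_ne_zero_of_sum_ne_zero h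
      exact mem_biUnion.2 ⟨θ, ih θ (mul_ne_zero_iff.1 hne).2, hb.symm _ _ hθ⟩
  have key : ∀ k j, j + k ≤ 2 * m → ∀ (χ : K) (hχ : χ ∈ W), χ ∈ Mss2.nball G.nbhd j ψ →
      G.wpow kept k χ ψ = (A ^ k) ⟨χ, hχ⟩ ⟨ψ, hψW⟩ := by
    intro k
    induction k with
    | zero =>
      intro j _ χ hχ _
      simp [GraphModel.wpow, Matrix.one_apply]
    | succ k ih =>
      intro j hjk χ hχ hj
      have hkχ : kept ψ = kept χ := (hk χ).2 (hWc χ hχ)
      rw [pow_succ', Matrix.mul_apply, GraphModel.wpow]
      rw [← sum_subset (inter_subset_left (s₂ := W)) (fun θ hθ hθW => ?_)]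
      · rw [sum_coe_sort_eq_attach, ← sum_attach (G.nbhd χ ∩ W)]
        refine sum_bij_ne_zero (fun θ _ _ => ⟨θ.1, (mem_inter.1 θ.2).2⟩) (fun _ _ _ => mem_attach _ _)
          (fun _ _ _ _ _ _ h => Subtype.ext (congrArg (fun a : {v // v ∈ W} => (a : K)) h)) (fun θ _ hne => ?_)
          (fun θ _ hne => ?_)
        · have hx : G.x χ θ.1 ≠ 0 := fun h => hne (by simp [hAdef, h])
          have hθn : θ.1 ∈ G.nbhd χ := hb.supp 0 _ _ hx
          refine ⟨⟨θ.1, mem_inter.2 ⟨hθn, θ.2⟩⟩, mem_attach _ _, ?_, Subtype.ext rfl⟩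
          rw [if_pos (hkχ.symm.trans ((hk _).2 (hWc _ θ.2))),
            ih (j + 1) (by omega) θ.1 θ.2 (mem_biUnion.2 ⟨χ, hj, hθn⟩)]
          exact hne
        · have h2 := mem_inter.1 θ.2
          rw [if_pos (hkχ.symm.trans ((hk _).2 (hWc _ h2.2))),
            ih (j + 1) (by omega) θ.1 h2.2 (mem_biUnion.2 ⟨χ, hj, h2.1⟩)]
          rfl
      · by_contra hne
        obtain ⟨h1, h2⟩ := mul_ne_zero_iff.1 hne
        split_ifs at h1 with hclass
        · refine hθW (mem_inter.2 ⟨hθ, mem_filter.2 ⟨?_, (hk θ).1 (hkχ.trans hclass)⟩⟩)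
          rcases le_or_gt k m with hkm | hkm
          · exact Mss2.nball_mono hb hkm ψ (hsupp k θ h2)
          · exact Mss2.nball_mono hb (by omega : j + 1 ≤ m) ψ (mem_biUnion.2 ⟨χ, hj, hθ⟩)
        · exact h1 rfl
  rw [key (2 * m) 0 (by omega) ψ hψW (by simp [Mss2.nball])]
  exact pow_diag_re_le hA hev (2 * m) ⟨ψ, hψW⟩

end Vale.Agent.P078.TypeIII.Regular
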