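import Vale.Agent.P078.TypeIII.Rule.Defs

/-!
# Invariance of the mixed value under relabelling, phases and colour permutations
-/

namespace Vale.Agent.P078.TypeIII.Reg

open Vale.Agent.P078.Mss Vale.Agent.P078.Mss2
open Finset Matrix

universe u

variable {V W : Type u} [Fintype V] [DecidableEq V] [Fintype W] [DecidableEq W] {r : ℕ}

omit [Fintype V] [Fintype W] in
lemma minorMat_relabel (e : W ≃ V) (x : Matrix V V ℂ) (z : V → ℂ) (S : Finset W) :
    minorMat (x.submatrix e e) (fun i => z (e i)) S =
      (minorMat x z (S.map e.toEmbedding)).submatrix e e := by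
  ext i j
  simp [minorMat, e.injective.eq_iff]

lemma mix_relabel (e : W ≃ V) (x : Fin r → Matrix V V ℂ) (p : V → Fin r → ℝ)
    (z : Fin r → V → ℂ) :
    Mss2.mix (Mss2.sub x e) (fun i => p (e i)) (fun c i => z c (e i)) univ (fun _ => ∅) =
      Mss2.mix x p z univ (fun _ => ∅) := by
  simp only [Mss2.mix, Finset.empty_union]
  refine Fintype.sum_equiv (Equiv.arrowCongr e (Equiv.refl (Fin r))) _ _ fun f => ?_
  congr 1
  · exact Fintype.prod_equiv e _ _ fun i => by simp [Equiv.arrowCongr]
  · refine Finset.prod_congr rfl fun c _ => ?_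
    have hS : (univ.filter fun i => f i = c).map e.toEmbedding =
        univ.filter fun v => (Equiv.arrowCongr e (Equiv.refl (Fin r)) f) v = c := by
      ext v
      simp [Equiv.arrowCongr, Finset.mem_map_equiv]
    rw [Mss2.sub, minorMat_relabel, hS, Matrix.det_submatrix_equiv_self]

lemma minorMat_phase (d : V → ℂ) (hd : ∀ v, ‖d v‖ = 1) (x : Matrix V V ℂ) (z : V → ℂ)
    (S : Finset V) :
    minorMat (Matrix.of fun i j => d i * starRingEnd ℂ (d j) * x i j) z S =
      Matrix.diagonal d * minorMat x z S * Matrix.diagonal fun v => starRingEnd ℂ (d v) := by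
  ext i j
  have h1 : d i * starRingEnd ℂ (d i) = 1 := by rw [Complex.mul_conj', hd]; norm_num
  rw [Matrix.mul_diagonal, Matrix.diagonal_mul]
  simp only [minorMat, Matrix.of_apply]
  split_ifs with hS hij hij
  · subst hij
    linear_combination (-z i) * h1
  · ring
  · subst hij
    linear_combination -h1
  · ring

lemma mix_phase (d : V → ℂ) (hd : ∀ v, ‖d v‖ = 1) (x : Fin r → Matrix V V ℂ)
    (p : V → Fin r → ℝ) (z : Fin r → V → ℂ) (U : Finset V) (D : Fin r → Finset V) :
    Mss2.mix (fun c => Matrix.of fun i j => d i * starRingEnd ℂ (d j) * x c i j) p z U D =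
      Mss2.mix x p z U D := by
  simp only [Mss2.mix]
  refine Finset.sum_congr rfl fun f _ => ?_
  congr 1
  refine Finset.prod_congr rfl fun c _ => ?_
  rw [minorMat_phase d hd, Matrix.det_mul, Matrix.det_mul, Matrix.det_diagonal,
    Matrix.det_diagonal, mul_right_comm, ← Finset.prod_mul_distrib,
    Finset.prod_eq_one fun v _ => by rw [Complex.mul_conj', hd]; norm_num, one_mul]

omit [Fintype V] [DecidableEq V] in
lemma law_map (σ : Equiv.Perm (Fin r)) (col : V → Option (Fin r)) (v : V) (c : Fin r) :
    law (fun u => (col u).map σ) v (σ c) = law col v c := by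
  cases h : col v <;> simp [law, h, σ.injective.eq_iff]

lemma mix_perm (σ : Equiv.Perm (Fin r)) (x : Matrix V V ℂ) (col : V → Option (Fin r))
    (z : V → ℂ) (U : Finset V) :
    Mss2.mix (fun _ : Fin r => x) (law fun v => (col v).map σ) (fun _ v => z v) U (fun _ => ∅) =
      Mss2.mix (fun _ : Fin r => x) (law col) (fun _ v => z v) U (fun _ => ∅) := by
  simp only [Mss2.mix, Finset.empty_union]
  refine (Fintype.sum_equiv (Equiv.arrowCongr (Equiv.refl V) σ) _ _ fun f => ?_).symm
  congr 1
  · exact Finset.prod_congr rfl fun v _ => by simp [Equiv.arrowCongr, law_map]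
  · refine Fintype.prod_equiv σ _ _ fun c => ?_
    simp [Equiv.arrowCongr, σ.injective.eq_iff]

/-- Invariance of the mixed value. -/
theorem inv : InvGoal.{u} := by
  intro V _ r x col F y
  refine ⟨fun ι hι => ?_, fun d hd => ?_, fun σ => ?_⟩
  · have hm : ∀ i : {v // v ∈ F}, ι i.1 ∈ F.image ι := fun i => mem_image_of_mem ι i.2
    let e : {v // v ∈ F} ≃ {v // v ∈ F.image ι} :=
      Equiv.ofBijective (fun i => ⟨ι i.1, hm i⟩) ⟨fun i j h => Subtype.ext (hι i.2 j.2
        (congrArg Subtype.val h)), fun v => by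
        obtain ⟨i, hi, he⟩ := mem_image.1 v.2
        exact ⟨⟨i, hi⟩, Subtype.ext he⟩⟩
    exact congrArg Complex.re (mix_relabel e
      (fun _ : Fin r => x.submatrix (Subtype.val : {v // v ∈ F.image ι} → V) Subtype.val)
      (law fun v : {v // v ∈ F.image ι} => col v.1) (Mss2.realVars fun _ v => y v.1)).symm
  · exact congrArg Complex.re (mix_phase (fun v : {v // v ∈ F} => d v.1) (fun v => hd v.1 v.2)
      (fun _ : Fin r => x.submatrix Subtype.val Subtype.val) _ _ univ (fun _ => ∅))
  · exact congrArg Complex.re (mix_perm σ (x.submatrix Subtype.val Subtype.val)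
      (fun v : {v // v ∈ F} => col v.1) (fun v => (y v.1 : ℂ)) univ)

end Vale.Agent.P078.TypeIII.Reg
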