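import Vale.Agent.P078.TypeIII.Rule.Process2
import Vale.Agent.P078.TypeIII.Reg.Regular

/-!
# Good rules exist for every graph model
-/

namespace Vale.Agent.P078.TypeIII.Rule

open Finset Filter Topology
open Vale.Agent.P078.Transfer Vale.Agent.P078.TypeIII.Reg

universe u

lemma nbhd_card_le {K : Type u} [TopologicalSpace K] (G : GraphModel K) (v : K) :
    (G.nbhd v).card ≤ G.L + 1 := by
  classical
  unfold GraphModel.nbhd
  refine (card_insert_le _ _).trans (Nat.add_le_add_right ?_ 1)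
  exact card_image_le.trans (by simp)

/-- The bad set of the final state sees only the ball of radius `m`. -/
lemma badEnd_congr {V : Type u} [DecidableEq V] (hC : PCongrGoal.{u}) (p : Prm)
    {x : Matrix V V ℂ} {nb : V → Finset V} {m : ℕ} {ψ : V} (hψ : ψ ∈ Mss2.nball nb m ψ)
    {st st' : St V p.r} (h : ∀ u ∈ Mss2.nball nb m ψ, st u = st' u) :
    badEnd p x nb m ψ st = badEnd p x nb m ψ st' := by
  have hc : ∀ u ∈ Mss2.nball nb m ψ, colOf st u = colOf st' u := fun u hu =>
    congrArg Option.join (h u hu)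
  have hf : (Mss2.nball nb m ψ).filter (fun u => (colOf st u).isSome)
      = (Mss2.nball nb m ψ).filter (fun u => (colOf st' u).isSome) :=
    filter_congr fun u hu => by rw [hc u hu]
  have hiff : ((colOf st ψ).isSome ∧ ∀ b, Valid (Reg.sgn b x) (colOf st)
        ((Mss2.nball nb m ψ).filter fun u => (colOf st u).isSome) (fun _ => 135 * p.Y0))
      ↔ ((colOf st' ψ).isSome ∧ ∀ b, Valid (Reg.sgn b x) (colOf st')
        ((Mss2.nball nb m ψ).filter fun u => (colOf st' u).isSome) (fun _ => 135 * p.Y0)) := by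
    rw [hc ψ hψ, hf]
    refine and_congr_right fun _ => forall_congr' fun b => forall₂_congr fun F hF => ?_
    rw [hC _ _ _ F _ _ (fun u hu => hc u (mem_of_mem_filter u (hF hu))) (fun u _ => rfl)]
  classical
  unfold badEnd
  exact if_congr hiff rfl rfl

/-- The average over the joint seeds forgets the spare colours. -/
lemma avg_fst {ι β γ α : Type*} [Fintype ι] [DecidableEq ι] [Fintype β] [Fintype γ] [Fintype α]
    [Nonempty γ] (e : α ≃ β × γ) (f : (ι → β) → ℝ) :
    (Fintype.card (ι → α) : ℝ)⁻¹ * ∑ τ : ι → α, f (fun i => (e (τ i)).1)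
      = (Fintype.card (ι → β) : ℝ)⁻¹ * ∑ σ : ι → β, f σ := by
  let E : (ι → α) ≃ (ι → β) × (ι → γ) :=
    (Equiv.arrowCongr (Equiv.refl ι) e).trans (Equiv.arrowProdEquivProdArrow ι (fun _ => β) (fun _ => γ))
  have h : ∑ τ : ι → α, f (fun i => (e (τ i)).1) = ∑ q : (ι → β) × (ι → γ), f q.1 :=
    Fintype.sum_equiv E _ _ fun τ => rfl
  rw [h, Fintype.sum_prod_type, Fintype.card_congr E, Fintype.card_prod]
  simp only [sum_const, card_univ, nsmul_eq_mul, ← mul_sum]
  have hγ : (Fintype.card (ι → γ) : ℝ) ≠ 0 := by exact_mod_cast Fintype.card_ne_zero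
  push_cast
  field_simp

/-- The pair of slot seeds and spare colour. -/
abbrev Alph (p : Prm) := (Fin p.T → Seed p) × Fin p.r

/-- **Good rules.** -/
theorem ruleGoal_of (hReg : RegularGoal.{u}) (hI : InvGoal.{u}) (hC : PCongrGoal.{u})
    (hM : ValidMonoGoal.{u}) (hN : CountGoal.{u}) (hLoc : IterLocalGoal.{u})
    (hRun : RunAvgGoal.{u}) (hSh : IterShiftGoal.{u}) (hEnd : Regular.EndGoal.{u}) :
    Regular.RuleGoal.{u} 405 := by
  intro K _ _ _ _ G r hr m δ hδ
  classical
  obtain ⟨J, S, Q, Kt, R, ρ, n, lam, hp, hreg⟩ := hReg r hr δ hδ (G.L + 1) m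
  set p := Prm.mk r J S Q Kt R ρ n lam with hpdef
  have hQ := hp.Q_pos
  have hr1 : 1 ≤ p.r := by have := hp.r_ge; omega
  have : NeZero p.r := ⟨by omega⟩
  have : NeZero r := ⟨by omega⟩
  have : Nonempty (Fin p.r) := ⟨0⟩
  have : Nonempty (Seed p) := ⟨(⟨0, hQ⟩, fun _ => 0)⟩
  obtain ⟨O, hsound, hOloc, hOsh, hOlc⟩ := exists_oracle (G := G) hI hC hM hN hp
  obtain ⟨s, hs⟩ : ∃ s, Fintype.card (Alph p) = s + 1 :=
    ⟨Fintype.card (Alph p) - 1, by have := Fintype.card_pos (α := Alph p); omega⟩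
  let e : Fin (s + 1) ≃ Alph p := (finCongr hs.symm).trans (Fintype.equivFin (Alph p)).symm
  let eW := (Fintype.equivFin (Wd G.L (rad p))).symm
  -- the state for seeds on all points, and the rule
  let state : (K → Fin (s + 1)) → St K p.r := fun σ =>
    iter p G.nbhd O (seqOf p (fun a => (e a).1) σ) p.T
  let ext : K → (Fin (Fintype.card (Wd G.L (rad p))) → Fin (s + 1)) → K → Fin (s + 1) :=
    fun ψ κ u => κ (eW.symm (seedWord G p ψ u))
  have hrefl : ∀ v : K, v ∈ G.nbhd v := fun v => (mem_nbhd G).2 (Or.inl rfl)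
  have hlocal : ∀ (σ σ' : K → Fin (s + 1)) (v : K),
      (∀ u ∈ Mss2.nball G.nbhd (rad p) v, σ u = σ' u) → state σ v = state σ' v := fun σ σ' v h =>
    hLoc p G.nbhd O hrefl hOloc _ _ p.T v fun t ht u hu => by
      simp only [seqOf, dif_pos ht]
      rw [h u hu]
  have hstate : ∀ φ₀, ∀ᶠ φ in 𝓝 φ₀, ∀ κ,
      state (ext φ κ) φ = state (ext φ₀ κ) φ₀ ∧ ext φ κ φ = ext φ₀ κ φ₀ := fun φ₀ => by
    filter_upwards [eventually_state G p hOlc (fun a : Fin (s + 1) => (e a).1) φ₀,
      eventually_sameWords G (rad p) φ₀] with φ h hsame κ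
    refine ⟨h (fun w => κ (eW.symm w)), congrArg (fun w => κ (eW.symm w)) ?_⟩
    have e2 := hsame.repW_eq (u := φ₀) (act_mem_ball G φ₀ ⟨[], List.mem_toFinset.2 (nil_mem_words _ _)⟩)
    rw [hsame.tr_centre] at e2
    exact e2
  let Ru : Regular.Rule G r :=
    { s := s
      N := Fintype.card (Wd G.L (rad p))
      wd := fun i => (eW i).1
      col := fun ψ κ => (colOf (state (ext ψ κ)) ψ).getD (e (ext ψ κ ψ)).2
      del := fun ψ κ => (colOf (state (ext ψ κ)) ψ).isNone
      col_lc := fun κ => (IsLocallyConstant.iff_eventually_eq _).2 fun φ₀ => by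
        filter_upwards [hstate φ₀] with φ h
        simp only [colOf, (h κ).1, (h κ).2]
      del_lc := fun κ => (IsLocallyConstant.iff_eventually_eq _).2 fun φ₀ => by
        filter_upwards [hstate φ₀] with φ h
        simp only [colOf, (h κ).1] }
  have hread : ∀ (σ : K → Fin (s + 1)) (ψ : K) (u : K), u ∈ Mss2.nball G.nbhd (rad p) ψ →
      ext ψ (fun i => σ (act G.h (eW i).1 ψ)) u = σ u := by
    intro σ ψ u hu
    simp only [ext, Equiv.apply_symm_apply]
    exact congrArg σ (repW_spec G hu)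
  have hat : ∀ (σ : K → Fin (s + 1)) (ψ : K),
      state (ext ψ (fun i => σ (act G.h (eW i).1 ψ))) ψ = state σ ψ ∧
      ext ψ (fun i => σ (act G.h (eW i).1 ψ)) ψ = σ ψ := fun σ ψ =>
    ⟨hlocal _ _ _ (hread σ ψ), hread σ ψ ψ
      (act_mem_ball G ψ ⟨[], List.mem_toFinset.2 (nil_mem_words _ _)⟩)⟩
  have hcol : ∀ σ ψ, Ru.colAt σ ψ = (colOf (state σ) ψ).getD (e (σ ψ)).2 := fun σ ψ =>
    congrArg₂ (fun (o : Option (Option (Fin r))) a => (Option.join o).getD (e a).2)
      (hat σ ψ).1 (hat σ ψ).2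
  have hdel : ∀ σ ψ, Ru.delAt σ ψ = (colOf (state σ) ψ).isNone := fun σ ψ =>
    congrArg (fun o : Option (Option (Fin r)) => (Option.join o).isNone) (hat σ ψ).1
  have hreach : ∀ (k : ℕ) (ψ v : K), v ∈ Mss2.nball G.nbhd k ψ →
      ∀ u ∈ Mss2.nball G.nbhd (rad p) v, u ∈ Ru.reach k ψ := by
    intro k ψ v hv u hu
    obtain ⟨w, hw, rfl⟩ := (mem_ball2_iff G k).1 hv
    obtain ⟨w', hw', rfl⟩ := (mem_ball2_iff G _).1 hu
    refine mem_biUnion.2 ⟨w, List.mem_toFinset.2 hw, mem_image.2
      ⟨eW.symm ⟨w', List.mem_toFinset.2 hw'⟩, mem_univ _, ?_⟩⟩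
    simp [Ru]
  refine ⟨Ru, ⟨fun ψ c => ?_, fun ψ => ?_⟩⟩
  · -- every colour has probability `1 / r`
    have hψ0 : ψ ∈ Mss2.nball G.nbhd 0 ψ := by simp [Mss2.nball]
    let π : Fin r → Equiv.Perm (Fin (s + 1)) := fun k =>
      e.trans (((Equiv.arrowCongr (Equiv.refl (Fin p.T)) (Equiv.prodCongr (Equiv.refl (Fin p.Q))
        (Equiv.arrowCongr (Equiv.refl (Fin p.K)) (Equiv.addRight k)))).prodCongr
          (Equiv.addRight k)).trans e.symm)
    have hπ : ∀ k a, e (π k a) = ((fun t => shiftSeed p k ((e a).1 t)), (e a).2 + k) := fun k a => by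
      simp only [π, Equiv.trans_apply, Equiv.apply_symm_apply]
      rfl
    set f : Fin r → ℝ := fun c => Regular.avgSeeds (Ru.reach 0 ψ)
      (fun σ => if Ru.colAt σ ψ = c then (1 : ℝ) else 0) with hf
    have hshift : ∀ c k, f (c + k) = f c := by
      intro c k
      simp only [f, Regular.avgSeeds]
      congr 1
      refine (Fintype.sum_equiv (Equiv.arrowCongr (Equiv.refl _) (π k)) _ _ fun τ => ?_).symm
      set σ : K → Fin (s + 1) := fun v => if hv : v ∈ Ru.reach 0 ψ then τ ⟨v, hv⟩ else 0 with hσ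
      set σ' : K → Fin (s + 1) := fun v => if hv : v ∈ Ru.reach 0 ψ then
        (Equiv.arrowCongr (Equiv.refl _) (π k) τ) ⟨v, hv⟩ else 0 with hσ'
      have hval : ∀ u ∈ Mss2.nball G.nbhd (rad p) ψ, σ' u = π k (σ u) := fun u hu => by
        have := hreach 0 ψ ψ hψ0 u hu
        simp [σ, σ', this, Equiv.arrowCongr]
      have hst : state (fun u => π k (σ u)) = shiftSt p k (state σ) := by
        have hseq : seqOf p (fun a => (e a).1) (fun u => π k (σ u))
            = fun i v => (seqOf p (fun a => (e a).1) σ i v).map (shiftSeed p k) := by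
          funext i v
          unfold seqOf
          split
          · simp [hπ]
          · rfl
        change iter p G.nbhd O (seqOf p (fun a => (e a).1) fun u => π k (σ u)) p.T = _
        rw [hseq]
        exact hSh p G.nbhd O hOsh k _ p.T
      have hsq : σ' ψ = π k (σ ψ) :=
        hval ψ (act_mem_ball G ψ ⟨[], List.mem_toFinset.2 (nil_mem_words _ _)⟩)
      have hkey : Ru.colAt σ' ψ = Ru.colAt σ ψ + k := by
        have hsv : state σ' ψ = shiftSt p k (state σ) ψ := by
          rw [hlocal σ' (fun u => π k (σ u)) ψ hval, hst]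
        rw [hcol, hcol, hsq, hπ]
        unfold colOf
        rw [hsv]
        unfold shiftSt
        rcases state σ ψ with _ | _ | d <;> rfl
      change (if Ru.colAt σ ψ = c then (1 : ℝ) else 0) = if Ru.colAt σ' ψ = c + k then 1 else 0
      simp only [hkey, add_left_inj]
    have hsum : ∑ d, f d = 1 := by
      simp only [f, Regular.avgSeeds, ← mul_sum]
      rw [sum_comm]
      simp only [sum_ite_eq, mem_univ, if_true, sum_const, card_univ, nsmul_eq_mul, mul_one]
      exact inv_mul_cancel₀ (by exact_mod_cast Fintype.card_ne_zero)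
    have hall : ∀ d, f d = f c := fun d => by
      have := hshift c (d - c)
      rwa [add_sub_cancel] at this
    rw [Finset.sum_congr rfl (fun d _ => hall d), sum_const, card_univ, Fintype.card_fin,
      nsmul_eq_mul] at hsum
    exact eq_inv_of_mul_eq_one_right hsum
  · -- the regular estimate
    set U := Ru.reach (2 * m) ψ with hU
    have hnb : Mss2.nball G.nbhd m ψ ⊆ Mss2.nball G.nbhd (2 * m) ψ :=
      Mss2.nball_mono (r := 1) (x := fun _ => G.x) (band_model G) (by omega) ψ
    have hψm : ψ ∈ Mss2.nball G.nbhd m ψ :=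
      Mss2.mem_nball_self (r := 1) (x := fun _ => G.x) (band_model G) m ψ
    have hψU : ψ ∈ U := hreach _ ψ ψ (hnb hψm) ψ
      (act_mem_ball G ψ ⟨[], List.mem_toFinset.2 (nil_mem_words _ _)⟩)
    refine le_trans ?_ (hreg G.x G.nbhd O (kern_model G) (band_model G) (nbhd_card_le G) hsound
      U ψ hψU)
    rw [hRun p hQ hr1, ← avg_fst e]
    simp only [Regular.avgSeeds]
    gcongr with τ _
    set σ : K → Fin (s + 1) := fun v => if hv : v ∈ U then τ ⟨v, hv⟩ else 0 with hσ
    have hend : badEnd p G.x G.nbhd m ψ (iter p G.nbhd O (fun t v =>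
        if h : v ∈ U ∧ t < p.T then some ((e (τ ⟨v, h.1⟩)).1 ⟨t, h.2⟩) else none) p.T)
        = badEnd p G.x G.nbhd m ψ (state σ) := by
      refine badEnd_congr hC p hψm fun v hv => ?_
      refine hLoc p G.nbhd O hrefl hOloc _ _ p.T v fun t ht u hu => ?_
      have huU : u ∈ U := hreach _ ψ v (hnb hv) u hu
      simp only [seqOf, dif_pos ht, dif_pos (show u ∈ U ∧ t < p.T from ⟨huU, ht⟩), σ, dif_pos huU]
    refine le_trans ?_ hend.ge
    unfold badEnd
    split_ifs with h1 h2
    · exfalso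
      obtain ⟨hsome, hvalid⟩ := h2
      rcases h1 with h1 | h1
      · rw [hdel] at h1
        rcases hc : colOf (state σ) ψ with _ | c <;> simp [hc] at h1 hsome
      · have hk : Ru.kept σ = fun u => (colOf (state σ) u).elim (Fin.last r) Fin.castSucc := by
          funext u
          unfold Regular.Rule.kept
          rw [hdel, hcol]
          rcases colOf (state σ) u with _ | c <;> rfl
        rw [hk] at h1
        have hz : (0 : ℝ) ≤ 135 * p.Y0 := by
          unfold Prm.Y0
          positivity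
        have := hEnd G m (colOf (state σ)) ψ (135 * p.Y0) hz hsome hvalid
        rw [show (405 : ℝ) / Real.sqrt r = 135 * p.Y0 by
          simp only [Prm.Y0, hpdef]; ring] at h1
        linarith
    all_goals norm_num

end Vale.Agent.P078.TypeIII.Rule
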