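import Vale.Agent.P078.TypeIII.Rule.Defs

/-!
# The random process of the rule: locality, averages and cyclic shifts
-/

namespace Vale.Agent.P078.TypeIII.Reg

open Vale.Agent.P078.Mss2
open Finset

universe u

variable {V : Type u} [DecidableEq V] {nb : V → Finset V}

lemma self_mem_nball (h : ∀ v, v ∈ nb v) : ∀ (n : ℕ) (v : V), v ∈ nball nb n v
  | 0, v => mem_singleton_self v
  | n + 1, v => mem_biUnion.2 ⟨v, self_mem_nball h n v, h v⟩

lemma nball_subset_nball (h : ∀ v, v ∈ nb v) {m n : ℕ} (hmn : m ≤ n) (v : V) :
    nball nb m v ⊆ nball nb n v := by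
  induction hmn with
  | refl => exact le_rfl
  | step _ ih => exact ih.trans fun w hw => mem_biUnion.2 ⟨w, hw, h w⟩

lemma acts_congr (p : Prm) (h : ∀ v, v ∈ nb v) {ω ω' : V → Option (Seed p)} {v : V}
    (hω : ∀ u ∈ nball nb (2 * p.ρ) v, ω u = ω' u) : acts p nb ω v = acts p nb ω' v := by
  have hf : ∀ u ∈ nball nb (2 * p.ρ) v, fire p ω u = fire p ω' u := fun u hu => by
    unfold fire
    rw [hω u hu]
  have e : ((nball nb (2 * p.ρ) v).erase v).filter (fun w => fire p ω w = true)
      = ((nball nb (2 * p.ρ) v).erase v).filter (fun w => fire p ω' w = true) :=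
    filter_congr fun w hw => by rw [hf w (mem_of_mem_erase hw)]
  unfold acts
  rw [hf v (self_mem_nball h _ v)]
  congr 1
  exact decide_eq_decide.2 (by rw [e])

/-- Proof of `IterLocalGoal`. -/
theorem iterLocal : IterLocalGoal.{u} := by
  intro p V _ nb O hrefl hO seq seq' k
  induction k with
  | zero => intros; rfl
  | succ k ih =>
    intro v h
    have hk : (k + 1) * (2 * p.ρ + p.R) = k * (2 * p.ρ + p.R) + (2 * p.ρ + p.R) := Nat.succ_mul _ _
    have hst : ∀ u ∈ nball nb p.R v, iter p nb O seq k u = iter p nb O seq' k u :=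
      fun u hu => ih u fun t ht w hw => h t (by omega) w
        (nball_subset_nball hrefl (by omega) v (nball_trans hu hw))
    have hω : ∀ u ∈ nball nb (2 * p.ρ) v, seq k u = seq' k u := fun u hu =>
      h k (by omega) u (nball_subset_nball hrefl (by omega) v hu)
    simp only [iter, step, hst v (self_mem_nball hrefl _ v), acts_congr p hrefl hω,
      hO (k / p.S) _ _ v hst, hω v (self_mem_nball hrefl _ v)]

lemma iter_congr (p : Prm) (O : Oracle V p) {seq seq' : ℕ → V → Option (Seed p)} :
    ∀ k : ℕ, (∀ t < k, seq t = seq' t) → iter p nb O seq k = iter p nb O seq' k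
  | 0, _ => rfl
  | k + 1, h => by
    rw [iter, iter, iter_congr p O k fun t ht => h t (by omega), h k (by omega)]

/-- The last slot can be averaged last. -/
lemma run_last (p : Prm) (O : Oracle V p) (U : Finset V) :
    ∀ (k t : ℕ) (st : St V p.r) (f : St V p.r → ℝ),
      run p nb O U (k + 1) t st f
        = run p nb O U k t st (fun s => avgOn p U fun ω => f (step p nb O ((t + k) / p.S) s ω))
  | 0, _, _, _ => rfl
  | k + 1, t, st, f => by
    conv_lhs => rw [run]
    conv_rhs => rw [run]
    refine congrArg (avgOn p U) (funext fun ω => ?_)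
    rw [run_last p O U k (t + 1), show t + 1 + k = t + (k + 1) by omega]

/-- Seeds of `k + 1` slots as seeds of the last slot and of the others. -/
def lastSlot (A B : Type*) (k : ℕ) : (A → B) × (A → Fin k → B) ≃ (A → Fin (k + 1) → B) where
  toFun τσ u := Fin.snoc (τσ.2 u) (τσ.1 u)
  invFun g := (fun u => g u (Fin.last k), fun u => Fin.init (g u))
  left_inv τσ := by simp
  right_inv g := by simp

/-- Proof of `RunAvgGoal`. -/
theorem runAvg : RunAvgGoal.{u} := by
  intro p _ _ V _ nb O U k
  induction k with
  | zero =>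
    intro f
    simp [run, iter]
  | succ k ih =>
    intro f
    rw [run_last, ih]
    simp only [avgOn, Nat.zero_add, mul_sum]
    have hc : (Fintype.card ({v // v ∈ U} → Fin (k + 1) → Seed p) : ℝ)
        = Fintype.card ({v // v ∈ U} → Seed p)
          * Fintype.card ({v // v ∈ U} → Fin k → Seed p) := by
      rw [← Fintype.card_congr (lastSlot _ _ k), Fintype.card_prod, Nat.cast_mul]
    conv_rhs =>
      rw [← (lastSlot _ _ k).sum_comp, Fintype.sum_prod_type, sum_comm, hc, mul_inv]
    refine sum_congr rfl fun σ _ => sum_congr rfl fun τ _ => ?_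
    have h1 : (fun v => if h : v ∈ U ∧ k < k + 1 then
        some (lastSlot _ _ k (τ, σ) ⟨v, h.1⟩ ⟨k, h.2⟩) else none) = extend p U τ := by
      funext v
      by_cases hv : v ∈ U
      · have : (⟨k, Nat.lt_succ_self k⟩ : Fin (k + 1)) = Fin.last k := rfl
        simp [hv, extend, lastSlot, this]
      · simp [hv, extend]
    rw [show iter p nb O (fun t v => if h : v ∈ U ∧ t < k + 1 then
          some (lastSlot _ _ k (τ, σ) ⟨v, h.1⟩ ⟨t, h.2⟩) else none) (k + 1)
        = step p nb O (k / p.S) (iter p nb O (fun t v => if h : v ∈ U ∧ t < k then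
          some (σ ⟨v, h.1⟩ ⟨t, h.2⟩) else none) k) (extend p U τ) from ?_]
    · ring
    rw [iter, h1]
    congr 1
    refine iter_congr p O k fun t ht => funext fun v => ?_
    by_cases hv : v ∈ U
    · rw [dif_pos ⟨hv, Nat.lt_succ_of_lt ht⟩, dif_pos ⟨hv, ht⟩]
      exact congrArg some (Fin.snoc_castSucc (α := fun _ => Seed p) (τ ⟨v, hv⟩) (σ ⟨v, hv⟩) ⟨t, ht⟩)
    · simp [hv]

/-- Proof of `IterShiftGoal`. -/
theorem iterShift : IterShiftGoal.{u} := by
  intro p _ V _ nb O hO k seq t
  induction t with
  | zero => rfl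
  | succ t ih =>
    funext v
    have hf : ∀ u, fire p (fun w => (seq t w).map (shiftSeed p k)) u = fire p (seq t) u := fun u => by
      unfold fire
      dsimp only
      cases seq t u <;> rfl
    have ha : acts p nb (fun w => (seq t w).map (shiftSeed p k)) v = acts p nb (seq t) v := by
      simp only [acts, hf]
    have hn : ∀ s : St V p.r, shiftSt p k s v = none ↔ s v = none := fun s => Option.map_eq_none_iff
    simp only [iter, step, ih, ha, hn]
    by_cases hc : iter p nb O seq t v = none ∧ acts p nb (seq t) v = true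
    · rw [if_pos hc]
      simp only [shiftSt, iter, step, if_pos hc]
      cases seq t v with
      | none => rfl
      | some σ =>
        simp only [Option.map_some, choose, shiftSeed, hO k (t / p.S)]
        rw [show (List.ofFn fun i => σ.2 i + k) = (List.ofFn σ.2).map (· + k) by
          rw [List.map_ofFn]; rfl, List.find?_map]
        simp [Function.comp_def]
    · rw [if_neg hc]
      simp only [shiftSt, iter, step, if_neg hc]

end Vale.Agent.P078.TypeIII.Reg
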