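import Vale.Agent.P078.TypeIII.Rule.Defs
import Vale.Agent.P078.TypeIII.Reg.Sign

/-!
# The tests only see the state on the ball, up to a shift of colours
-/

namespace Vale.Agent.P078.TypeIII.Rule

open Finset Matrix
open Vale.Agent.P078.TypeIII.Reg

universe u

variable {V : Type u} [DecidableEq V] (p : Prm)

/-- The open test for colour `c`. -/
def OpenTest (x : Matrix V V ℂ) (nb : V → Finset V) (j : ℕ) (st : St V p.r) (v : V)
    (c : Fin p.r) : Prop :=
  ∀ b, Valid (Reg.sgn b x) (colOf st) (ball p nb v st) (ylev p (p.lev j) st) ∧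
    aval (Reg.sgn b x) (Function.update (colOf st) v (some c)) (ball p nb v st) v
        (ylev p (p.lev j) st) < 8 * p.lev j ∧
    dval p (Reg.sgn b x) (Function.update (colOf st) v (some c)) (ball p nb v st) v
        (ylev p (p.lev j) st) < p.lam * p.Y0

variable {p} {x : Matrix V V ℂ} {nb : V → Finset V} {j : ℕ} {st : St V p.r} {v : V} {c : Fin p.r}

lemma OpenTest.weak (h : OpenTest p x nb j st v c) : WeakTest p x nb j st v c :=
  fun b => ⟨(h b).1, (h b).2.1.le, (h b).2.2.le⟩

lemma StrongTest.openTest (h : p.Ok) (hs : StrongTest p x nb j st v c) :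
    OpenTest p x nb j st v c := by
  have hg : 0 < p.g / 8 := by
    have : 0 < p.g := by
      have h1 : (0 : ℝ) < p.r := by exact_mod_cast (show 0 < p.r by have := h.r_ge; omega)
      have h2 : (0 : ℝ) < p.J := by exact_mod_cast (show 0 < p.J by have := h.J_ge; omega)
      unfold Prm.g Prm.Y0
      positivity
    linarith
  have hY : 0 < p.Y0 := by
    have h1 : (0 : ℝ) < p.r := by exact_mod_cast (show 0 < p.r by have := h.r_ge; omega)
    unfold Prm.Y0
    positivity
  have hL : 0 < p.lev j := by
    have : 0 < p.g := by linarith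
    unfold Prm.lev
    positivity
  intro b
  obtain ⟨h1, h2, h3⟩ := hs b
  exact ⟨fun G hG => (pow_pos hg _).trans_le (h1 G hG), lt_of_le_of_lt h2 (by linarith),
    lt_of_le_of_lt h3 (by nlinarith [mul_pos h.lam_pos hY])⟩

variable (p) in
/-- Two states and colours which the tests at `v` cannot tell apart. -/
structure Agree (x : Matrix V V ℂ) (nb : V → Finset V) (v : V) (st st' : St V p.r)
    (c c' : Fin p.r) : Prop where
  ball_eq : ball p nb v st' = ball p nb v st
  lev_eq : ∀ L, ylev p L st' v = ylev p L st v
  P_eq : ∀ b L (t : ℝ), ∀ G ⊆ ball p nb v st,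
    P (Reg.sgn b x) (colOf st') G (fun u => ylev p L st' u + t)
      = P (Reg.sgn b x) (colOf st) G (fun u => ylev p L st u + t)
  P_eq' : ∀ b L (t : ℝ), ∀ G ⊆ ball p nb v st,
    P (Reg.sgn b x) (Function.update (colOf st') v (some c')) G (fun u => ylev p L st' u + t)
      = P (Reg.sgn b x) (Function.update (colOf st) v (some c)) G (fun u => ylev p L st u + t)

variable {st' : St V p.r} {c' : Fin p.r}

lemma Agree.aval_eq (h : Agree p x nb v st st' c c') (b : Bool) (L t : ℝ) :
    aval (Reg.sgn b x) (Function.update (colOf st') v (some c')) (ball p nb v st') v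
        (fun u => ylev p L st' u + t)
      = aval (Reg.sgn b x) (Function.update (colOf st) v (some c)) (ball p nb v st) v
        (fun u => ylev p L st u + t) := by
  unfold aval
  rw [h.ball_eq, h.P_eq' b L t _ subset_rfl, h.P_eq' b L t _ (erase_subset _ _)]
  dsimp only
  rw [h.lev_eq]

lemma Agree.aval_eq0 (h : Agree p x nb v st st' c c') (b : Bool) (L : ℝ) :
    aval (Reg.sgn b x) (Function.update (colOf st') v (some c')) (ball p nb v st') v (ylev p L st')
      = aval (Reg.sgn b x) (Function.update (colOf st) v (some c)) (ball p nb v st) v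
        (ylev p L st) := by
  simpa using h.aval_eq b L 0

lemma Agree.dval_eq (h : Agree p x nb v st st' c c') (b : Bool) (L : ℝ) :
    dval p (Reg.sgn b x) (Function.update (colOf st') v (some c')) (ball p nb v st') v
        (ylev p L st')
      = dval p (Reg.sgn b x) (Function.update (colOf st) v (some c)) (ball p nb v st) v
        (ylev p L st) := by
  unfold dval
  rw [h.aval_eq0, h.aval_eq b L p.g]

lemma Agree.P_eq0 (h : Agree p x nb v st st' c c') (b : Bool) (L : ℝ) {G : Finset V}
    (hG : G ⊆ ball p nb v st) :
    P (Reg.sgn b x) (colOf st') G (ylev p L st') = P (Reg.sgn b x) (colOf st) G (ylev p L st) := by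
  simpa using h.P_eq b L 0 G hG

lemma Agree.valid_iff (h : Agree p x nb v st st' c c') (b : Bool) (L : ℝ) :
    Valid (Reg.sgn b x) (colOf st') (ball p nb v st') (ylev p L st')
      ↔ Valid (Reg.sgn b x) (colOf st) (ball p nb v st) (ylev p L st) := by
  rw [h.ball_eq]
  exact forall₂_congr fun G hG => by rw [h.P_eq0 b L hG]

lemma Agree.open_iff (h : Agree p x nb v st st' c c') :
    OpenTest p x nb j st' v c' ↔ OpenTest p x nb j st v c :=
  forall_congr' fun b => by rw [h.valid_iff, h.aval_eq0, h.dval_eq]

lemma Agree.weak_iff (h : Agree p x nb v st st' c c') :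
    WeakTest p x nb j st' v c' ↔ WeakTest p x nb j st v c :=
  forall_congr' fun b => by rw [h.valid_iff, h.aval_eq0, h.dval_eq]

lemma Agree.strong_iff (h : Agree p x nb v st st' c c') :
    StrongTest p x nb j st' v c' ↔ StrongTest p x nb j st v c :=
  forall_congr' fun b => by
    rw [h.aval_eq0, h.dval_eq, h.ball_eq]
    exact and_congr_left' (forall₂_congr fun G hG => by rw [h.P_eq0 b _ hG])

lemma agree_of_eq (hC : PCongrGoal.{u}) {st st' : St V p.r} (hv : v ∈ Mss2.nball nb p.R v)
    (hst : ∀ u ∈ Mss2.nball nb p.R v, st u = st' u) (c : Fin p.r) : Agree p x nb v st st' c c where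
  ball_eq := filter_congr fun u hu => by rw [hst u hu]
  lev_eq L := congrArg (fun o : Option (Option (Fin p.r)) =>
    L + if (Option.join o).isSome = true then p.shiftS else 0) (hst v hv).symm
  P_eq b L t G hG := hC _ _ _ _ _ _
    (fun u hu => congrArg Option.join (hst u (mem_of_mem_filter u (hG hu))).symm)
    (fun u hu => congrArg (fun o : Option (Option (Fin p.r)) =>
      L + (if (Option.join o).isSome = true then p.shiftS else 0) + t)
        (hst u (mem_of_mem_filter u (hG hu))).symm)
  P_eq' b L t G hG := hC _ _ _ _ _ _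
    (fun u hu => by
      by_cases e : u = v
      · subst e; simp
      · simp [Function.update_of_ne e, colOf, hst u (mem_of_mem_filter u (hG hu))])
    (fun u hu => congrArg (fun o : Option (Option (Fin p.r)) =>
      L + (if (Option.join o).isSome = true then p.shiftS else 0) + t)
        (hst u (mem_of_mem_filter u (hG hu))).symm)

omit [DecidableEq V] in
lemma colOf_shiftSt [NeZero p.r] (k : Fin p.r) (st : St V p.r) (u : V) :
    colOf (shiftSt p k st) u = (colOf st u).map (· + k) := by
  unfold colOf shiftSt
  rcases st u with _ | _ | c <;> rfl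

omit [DecidableEq V] in
lemma ylev_shiftSt [NeZero p.r] (k : Fin p.r) (st : St V p.r) (L : ℝ) :
    ylev p L (shiftSt p k st) = ylev p L st := by
  funext u
  unfold ylev
  simp [colOf_shiftSt]

omit [DecidableEq V] in
lemma shiftSt_shiftSt [NeZero p.r] (k l : Fin p.r) (st : St V p.r) :
    shiftSt p l (shiftSt p k st) = shiftSt p (k + l) st := by
  funext u
  unfold shiftSt
  rcases st u with _ | _ | c <;> simp [add_assoc]

lemma agree_shift [NeZero p.r] (hI : InvGoal.{u}) (k : Fin p.r) (st : St V p.r) (c : Fin p.r) :
    Agree p x nb v st (shiftSt p k st) c (c + k) where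
  ball_eq := filter_congr fun u _ => by
    unfold shiftSt
    rcases st u with _ | _ | d <;> simp
  lev_eq L := by rw [ylev_shiftSt]
  P_eq b L t G _ := by
    rw [ylev_shiftSt]
    have h := (hI (Reg.sgn b x) (colOf st) G (fun u => ylev p L st u + t)).2.2 (Equiv.addRight k)
    rw [← h]
    congr 1
    funext u
    rw [colOf_shiftSt]
    rfl
  P_eq' b L t G _ := by
    rw [ylev_shiftSt]
    have h := (hI (Reg.sgn b x) (Function.update (colOf st) v (some c)) G
      (fun u => ylev p L st u + t)).2.2 (Equiv.addRight k)
    rw [← h]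
    congr 1
    funext u
    by_cases e : u = v
    · subst e; simp
    · rw [Function.update_of_ne e, Function.update_of_ne e, colOf_shiftSt]
      rfl

end Vale.Agent.P078.TypeIII.Rule
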