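import Vale.Agent.P078.TypeIII.Reg.Goals
import Vale.Agent.P078.TypeIII.Regular.Defs

/-!
# From the random rule to rules on graph models: definitions and goals
-/

namespace Vale.Agent.P078.TypeIII.Reg

open Vale.Agent.P078.Mss2
open Finset Matrix

universe u

variable (p : Prm) {V : Type u} [DecidableEq V]

/-- The states of the process for given seeds of all slots. -/
def iter (nb : V → Finset V) (O : Oracle V p) (seq : ℕ → V → Option (Seed p)) : ℕ → St V p.r
  | 0 => fun _ => none
  | k + 1 => step p nb O (k / p.S) (iter nb O seq k) (seq k)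

/-- The allowed colours depend only on the state on the ball of the rule. -/
def OLocal (nb : V → Finset V) (O : Oracle V p) : Prop :=
  ∀ j st st' v, (∀ u ∈ nball nb p.R v, st u = st' u) → O j st v = O j st' v

/-- Cyclic shift of colours in a state. -/
def shiftSt [NeZero p.r] (k : Fin p.r) (st : St V p.r) (v : V) : Option (Option (Fin p.r)) :=
  (st v).map (Option.map (· + k))

/-- Cyclic shift of colours in a seed. -/
def shiftSeed [NeZero p.r] (k : Fin p.r) (σ : Seed p) : Seed p := (σ.1, fun i => σ.2 i + k)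

/-- The allowed colours commute with cyclic shifts. -/
def OShift [NeZero p.r] (O : Oracle V p) : Prop :=
  ∀ k j st v, O j (shiftSt p k st) v = (O j st v).image (· + k)

/-- A closed test which is enough for colour `c` to be allowed at `v`. -/
def StrongTest (x : Matrix V V ℂ) (nb : V → Finset V) (j : ℕ) (st : St V p.r) (v : V)
    (c : Fin p.r) : Prop :=
  ∀ b, (∀ G ⊆ ball p nb v st,
      (p.g / 8) ^ G.card ≤ P (sgn b x) (colOf st) G (ylev p (p.lev j) st)) ∧
    aval (sgn b x) (Function.update (colOf st) v (some c)) (ball p nb v st) v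
        (ylev p (p.lev j) st) ≤ 7 * p.lev j ∧
    dval p (sgn b x) (Function.update (colOf st) v (some c)) (ball p nb v st) v
        (ylev p (p.lev j) st) ≤ 3 / 4 * (p.lam * p.Y0)

/-- At least half of the colours pass the closed test under the margin. -/
def CountGoal : Prop :=
  ∀ (p : Prm), p.Ok → ∀ {V : Type u} [DecidableEq V] (x : Matrix V V ℂ) (nb : V → Finset V),
    Kern x → Band x nb → ∀ (j : ℕ) (st : St V p.r) (v : V), j < p.J → st v = none →
    Margin p x nb j st v → ∀ G : Finset (Fin p.r),
      (∀ c, StrongTest p x nb j st v c → c ∈ G) → p.r ≤ 2 * G.card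

/-- The process is local. -/
def IterLocalGoal : Prop :=
  ∀ (p : Prm) {V : Type u} [DecidableEq V] (nb : V → Finset V) (O : Oracle V p),
    (∀ v, v ∈ nb v) → OLocal p nb O → ∀ (seq seq' : ℕ → V → Option (Seed p)) (k : ℕ) (v : V),
    (∀ t < k, ∀ u ∈ nball nb (k * (2 * p.ρ + p.R)) v, seq t u = seq' t u) →
    iter p nb O seq k v = iter p nb O seq' k v

/-- The recursive average is the average over all seeds. -/
def RunAvgGoal : Prop :=
  ∀ (p : Prm), 1 ≤ p.Q → 1 ≤ p.r → ∀ {V : Type u} [DecidableEq V] (nb : V → Finset V)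
    (O : Oracle V p) (U : Finset V) (k : ℕ) (f : St V p.r → ℝ),
    run p nb O U k 0 (fun _ => none) f
      = (Fintype.card ({v // v ∈ U} → Fin k → Seed p) : ℝ)⁻¹
        * ∑ σ : {v // v ∈ U} → Fin k → Seed p,
            f (iter p nb O (fun t v => if h : v ∈ U ∧ t < k then some (σ ⟨v, h.1⟩ ⟨t, h.2⟩) else none) k)

/-- The process commutes with cyclic shifts. -/
def IterShiftGoal : Prop :=
  ∀ (p : Prm) [NeZero p.r] {V : Type u} [DecidableEq V] (nb : V → Finset V) (O : Oracle V p),
    OShift p O → ∀ (k : Fin p.r) (seq : ℕ → V → Option (Seed p)) (t : ℕ),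
    iter p nb O (fun i v => (seq i v).map (shiftSeed p k)) t = shiftSt p k (iter p nb O seq t)

/-- Invariance of the mixed value under a change of labels, phases and colours. -/
def InvGoal : Prop :=
  ∀ {V : Type u} [DecidableEq V] {r : ℕ} (x : Matrix V V ℂ) (col : V → Option (Fin r))
    (F : Finset V) (y : V → ℝ),
    (∀ ι : V → V, Set.InjOn ι F →
      P x col (F.image ι) y = P (x.submatrix ι ι) (col ∘ ι) F (y ∘ ι)) ∧
    (∀ d : V → ℂ, (∀ v ∈ F, ‖d v‖ = 1) →
      P (Matrix.of fun i j => d i * starRingEnd ℂ (d j) * x i j) col F y = P x col F y) ∧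
    (∀ σ : Equiv.Perm (Fin r), P x (fun v => (col v).map σ) F y = P x col F y)

end Vale.Agent.P078.TypeIII.Reg

namespace Vale.Agent.P078.TypeIII.Regular

open Vale.Agent.P078.Transfer Vale.Agent.P078.TypeIII.Reg

universe u

/-- A good final state bounds the diagonal of the powers. -/
def EndGoal : Prop :=
  ∀ {K : Type u} [TopologicalSpace K] [DecidableEq K] (G : GraphModel K) {r : ℕ} [NeZero r]
    (m : ℕ) (col : K → Option (Fin r)) (ψ : K) (z : ℝ), 0 ≤ z → (col ψ).isSome →
    (∀ b, Valid (Reg.sgn b G.x) col ((Mss2.nball G.nbhd m ψ).filter fun u => (col u).isSome)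
      (fun _ => z)) →
    (G.wpow (fun u => (col u).elim (Fin.last r) Fin.castSucc) (2 * m) ψ ψ).re ≤ z ^ (2 * m)

end Vale.Agent.P078.TypeIII.Regular
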