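import Vale.Agent.P078.TypeIII.Rule.Defs
import Vale.Agent.P078.TypeIII.Reg.Sign
import Vale.Agent.P078.Transfer.Words

/-!
# The tests of the rule vary continuously along a graph model
-/

namespace Vale.Agent.P078.TypeIII.Rule

open Finset Matrix Filter Topology
open Vale.Agent.P078.Transfer Vale.Agent.P078.TypeIII.Reg

universe u

lemma nball_eq {V : Type u} [DecidableEq V] (nb : V → Finset V) :
    ∀ (N : ℕ) (v : V), Mss2.nball nb N v = Mss.nball nb N v
  | 0, _ => rfl
  | N + 1, v => by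
    change (Mss2.nball nb N v).biUnion nb = (Mss.nball nb N v).biUnion nb
    rw [nball_eq nb N v]

variable {K : Type u} [TopologicalSpace K] [DecidableEq K] (G : GraphModel K)

lemma band_model : Band G.x G.nbhd := by
  have h := Transfer.banded G
  exact ⟨h.refl, h.symm, fun _ v w hne => h.supp v w hne⟩

lemma kern_model : Kern G.x where
  herm i j := by
    have h := (G.x_bound {i, j}).1.apply ⟨i, by simp⟩ ⟨j, by simp⟩
    simpa using h
  diag := G.x_diag
  bound := G.x_bound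

lemma mem_ball2_iff (N : ℕ) {ψ φ : K} :
    φ ∈ Mss2.nball G.nbhd N ψ ↔ ∃ w ∈ words G.L N, act G.h w ψ = φ := by
  rw [nball_eq]
  exact mem_ball_iff G N

lemma nil_mem_words (L : ℕ) : ∀ N : ℕ, [] ∈ words L N
  | 0 => by simp [words]
  | N + 1 => List.mem_append_left _ (nil_mem_words L N)

/-- The words of the ball of radius `R`. -/
abbrev Wd (L R : ℕ) := {w : List (Fin L) // w ∈ (words L R).toFinset}

instance (L R : ℕ) : Nonempty (Wd L R) := ⟨⟨[], List.mem_toFinset.2 (nil_mem_words L R)⟩⟩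

/-- A chosen word leading from `ψ` to `φ`. -/
noncomputable def repW (R : ℕ) (ψ φ : K) : Wd G.L R :=
  Classical.epsilon fun w => act G.h w.1 ψ = φ

lemma repW_spec {R : ℕ} {ψ φ : K} (h : φ ∈ Mss2.nball G.nbhd R ψ) :
    act G.h (repW G R ψ φ).1 ψ = φ := by
  obtain ⟨w, hw, e⟩ := (mem_ball2_iff G R).1 h
  exact Classical.epsilon_spec (p := fun w : Wd G.L R => act G.h w.1 ψ = φ)
    ⟨⟨w, List.mem_toFinset.2 hw⟩, e⟩

lemma act_mem_ball {R : ℕ} (ψ : K) (w : Wd G.L R) : act G.h w.1 ψ ∈ Mss2.nball G.nbhd R ψ :=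
  (mem_ball2_iff G R).2 ⟨w.1, List.mem_toFinset.1 w.2, rfl⟩

/-- The ball of `ψ₀` transported to the ball of `φ`. -/
noncomputable def tr (R : ℕ) (ψ₀ φ u : K) : K := act G.h (repW G R ψ₀ u).1 φ

/-- `φ` has the same coincidences of short words as `ψ₀`. -/
def SameWords (R : ℕ) (ψ₀ φ : K) : Prop :=
  ∀ v w : Wd G.L R, (act G.h v.1 φ = act G.h w.1 φ ↔ act G.h v.1 ψ₀ = act G.h w.1 ψ₀)

lemma eventually_sameWords [T2Space K] (R : ℕ) (ψ₀ : K) :
    ∀ᶠ φ in 𝓝 ψ₀, SameWords G R ψ₀ φ :=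
  eventually_all.2 fun v => eventually_all.2 fun w => eventually_act_iff G v.1 w.1 ψ₀

namespace SameWords

variable {G} {R : ℕ} {ψ₀ φ : K} (h : SameWords G R ψ₀ φ)
include h

lemma tr_act (w : Wd G.L R) : tr G R ψ₀ φ (act G.h w.1 ψ₀) = act G.h w.1 φ :=
  (h _ w).2 (repW_spec G (act_mem_ball G ψ₀ w))

lemma tr_centre : tr G R ψ₀ φ ψ₀ = φ :=
  h.tr_act ⟨[], List.mem_toFinset.2 (nil_mem_words _ _)⟩

lemma injOn : Set.InjOn (tr G R ψ₀ φ) (Mss2.nball G.nbhd R ψ₀ : Set K) := by
  intro u hu v hv e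
  rw [← repW_spec G (mem_coe.1 hu), ← repW_spec G (mem_coe.1 hv)]
  exact (h _ _).1 e

lemma image_ball : (Mss2.nball G.nbhd R ψ₀).image (tr G R ψ₀ φ) = Mss2.nball G.nbhd R φ := by
  ext u
  simp only [mem_image]
  constructor
  · rintro ⟨v, -, rfl⟩
    exact act_mem_ball G φ _
  · intro hu
    exact ⟨act G.h (repW G R φ u).1 ψ₀, act_mem_ball G ψ₀ _,
      (h.tr_act _).trans (repW_spec G hu)⟩

lemma repW_eq {u : K} (hu : u ∈ Mss2.nball G.nbhd R ψ₀) :
    repW G R φ (tr G R ψ₀ φ u) = repW G R ψ₀ u := by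
  unfold repW
  congr 1
  funext w
  refine propext ?_
  rw [tr, h w _, repW_spec G hu]

end SameWords

lemma mix_kernel_continuous {W : Type*} [Fintype W] [DecidableEq W] {r : ℕ} (p : W → Fin r → ℝ)
    (z : Fin r → W → ℂ) :
    Continuous fun Y : Matrix W W ℂ => Mss2.mix (fun _ => Y) p z univ fun _ => ∅ := by
  refine continuous_finsetSum _ fun f _ => continuous_const.mul ?_
  refine continuous_finsetProd _ fun c _ => Continuous.matrix_det ?_
  refine continuous_matrix fun i j => ?_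
  simp only [Mss.minorMat, Matrix.of_apply]
  split_ifs <;> fun_prop

/-- The mixed value along a fixed pattern of words is continuous. -/
lemma continuousAt_P (hI : InvGoal.{u}) {R r : ℕ} (b : Bool) (ψ₀ : K) (F : Finset K)
    (col : K → Option (Fin r)) (y : K → ℝ) :
    ContinuousAt (fun φ => P ((Reg.sgn b G.x).submatrix (tr G R ψ₀ φ) (tr G R ψ₀ φ)) col F y)
      ψ₀ := by
  classical
  let e := F.equivFin
  obtain ⟨d, hd, hc⟩ := G.x_cont F.card fun i => (repW G R ψ₀ (e.symm i).1).1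
  set D : K → K → ℂ := fun φ u => if hu : u ∈ F then d φ (e ⟨u, hu⟩) else 1 with hD
  have hph : ∀ φ, P ((Reg.sgn b G.x).submatrix (tr G R ψ₀ φ) (tr G R ψ₀ φ)) col F y
      = P (Matrix.of fun i j => D φ i * starRingEnd ℂ (D φ j)
          * (Reg.sgn b G.x).submatrix (tr G R ψ₀ φ) (tr G R ψ₀ φ) i j) col F y := fun φ =>
    ((hI _ col F y).2.1 (D φ) fun v hv => by simp only [hD, dif_pos hv]; exact hd φ _).symm
  simp only [hph]
  refine Continuous.continuousAt ?_
  have hM : Continuous fun φ => (Matrix.of fun i j => D φ i * starRingEnd ℂ (D φ j)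
      * (Reg.sgn b G.x).submatrix (tr G R ψ₀ φ) (tr G R ψ₀ φ) i j).submatrix
        (Subtype.val : {v // v ∈ F} → K) (Subtype.val : {v // v ∈ F} → K) := by
    refine continuous_matrix fun i j => ?_
    have hij := hc (e i) (e j)
    simp only [Equiv.symm_apply_apply] at hij
    simp only [Matrix.submatrix_apply, Matrix.of_apply, hD, dif_pos i.2, dif_pos j.2,
      Subtype.coe_eta, tr]
    cases b
    · refine hij.neg.congr fun φ => ?_
      simp [Reg.sgn]
    · simpa [Reg.sgn] using hij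
  exact Complex.continuous_re.comp ((mix_kernel_continuous _ _).comp hM)

variable (p : Prm)

/-- The state with pattern `a` around `φ`. -/
noncomputable def stOf (R : ℕ) (a : Wd G.L R → Option (Option (Fin p.r))) (φ : K) : St K p.r :=
  fun u => a (repW G R φ u)

variable {G p} {ψ₀ φ : K} (a : Wd G.L p.R → Option (Option (Fin p.r)))

lemma SameWords.stOf_eq (h : SameWords G p.R ψ₀ φ) {u : K}
    (hu : u ∈ Mss2.nball G.nbhd p.R ψ₀) :
    stOf G p p.R a φ (tr G p.R ψ₀ φ u) = stOf G p p.R a ψ₀ u := by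
  unfold stOf
  rw [h.repW_eq hu]

lemma SameWords.ball_eq (h : SameWords G p.R ψ₀ φ) :
    ball p G.nbhd φ (stOf G p p.R a φ)
      = (ball p G.nbhd ψ₀ (stOf G p p.R a ψ₀)).image (tr G p.R ψ₀ φ) := by
  unfold ball alive
  rw [← h.image_ball, filter_image]
  congr 1
  exact filter_congr fun u hu => by rw [h.stOf_eq a hu]

/-- The value of a set of the ball, after the colour of the centre was set. -/
noncomputable def pat (b : Bool) (j : ℕ) (oc : Option (Fin p.r)) (t : ℝ) (φ : K) (F : Finset K) :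
    ℝ :=
  P (Reg.sgn b G.x) (Function.update (colOf (stOf G p p.R a φ)) φ oc) F
    (fun u => ylev p (p.lev j) (stOf G p p.R a φ) u + t)

lemma continuousAt_pat [T2Space K] (hI : InvGoal.{u}) (hC : PCongrGoal.{u}) (b : Bool) (j : ℕ)
    (oc : Option (Fin p.r)) (t : ℝ) {F : Finset K} (hF : F ⊆ Mss2.nball G.nbhd p.R ψ₀) :
    ContinuousAt (fun φ => pat a b j oc t φ (F.image (tr G p.R ψ₀ φ))) ψ₀ := by
  refine (continuousAt_congr ?_).2 (continuousAt_P (R := p.R) G hI b ψ₀ F
    (Function.update (colOf (stOf G p p.R a ψ₀)) ψ₀ oc)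
    (fun u => ylev p (p.lev j) (stOf G p p.R a ψ₀) u + t))
  filter_upwards [eventually_sameWords G p.R ψ₀] with φ h
  have hst : ∀ u ∈ F, stOf G p p.R a φ (tr G p.R ψ₀ φ u) = stOf G p p.R a ψ₀ u := fun u hu =>
    h.stOf_eq a (hF hu)
  unfold pat
  rw [(hI _ _ F _).1 _ (h.injOn.mono (by simpa using hF))]
  refine hC _ _ _ _ _ _ (fun u hu => ?_) (fun u hu => ?_)
  · have hc : ψ₀ ∈ Mss2.nball G.nbhd p.R ψ₀ :=
      Mss2.mem_nball_self (r := 1) (x := fun _ => G.x) (band_model G) _ _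
    by_cases e : u = ψ₀
    · subst e
      simp [h.tr_centre]
    · have hne : tr G p.R ψ₀ φ u ≠ φ := fun e' =>
        e (h.injOn (mem_coe.2 (hF hu)) (mem_coe.2 hc) (e'.trans h.tr_centre.symm))
      simp [Function.comp, Function.update_of_ne e, Function.update_of_ne hne, colOf, hst u hu]
  · exact congrArg (fun o : Option (Option (Fin p.r)) =>
      p.lev j + (if (Option.join o).isSome = true then p.shiftS else 0) + t) (hst u hu)

end Vale.Agent.P078.TypeIII.Rule
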