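import Vale.Agent.P078.TypeIII.Rule.Local
import Vale.Agent.P078.TypeIII.Rule.Agree

/-!
# A locally constant equivariant choice of the allowed colours
-/

namespace Vale.Agent.P078.TypeIII.Rule

open Finset Matrix Filter Topology
open Vale.Agent.P078.Transfer Vale.Agent.P078.TypeIII.Reg

universe u

variable {K : Type u} [TopologicalSpace K] [DecidableEq K] (G : GraphModel K) (p : Prm)

/-- The allowed colours are locally constant in the point. -/
def OLc (O : Oracle K p) : Prop :=
  ∀ (j : ℕ) (φ₀ : K), ∀ᶠ φ in 𝓝 φ₀, ∀ st st' : St K p.r,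
    (∀ w : Wd G.L p.R, st' (act G.h w.1 φ) = st (act G.h w.1 φ₀)) → O j st' φ = O j st φ₀

lemma mem_self_ball (φ : K) : φ ∈ Mss2.nball G.nbhd p.R φ :=
  act_mem_ball G φ ⟨[], List.mem_toFinset.2 (nil_mem_words _ _)⟩

omit [DecidableEq K] in
/-- A clopen set between a closed and an open set. -/
lemma exists_clopen_between [CompactSpace K] [T2Space K] [TotallySeparatedSpace K] {C O : Set K}
    (hC : IsClosed C) (hO : IsOpen O) (hCO : C ⊆ O) : ∃ U, IsClopen U ∧ C ⊆ U ∧ U ⊆ O := by
  have : ∀ x ∈ C, ∃ V : Set K, IsClopen V ∧ x ∈ V ∧ V ⊆ O := fun x hx =>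
    compact_exists_isClopen_in_isOpen hO (hCO hx)
  choose! V hV hxV hVO using this
  obtain ⟨t, ht, hcov⟩ := hC.isCompact.elim_nhds_subcover V
    (fun x hx => (hV x hx).isOpen.mem_nhds (hxV x hx))
  exact ⟨⋃ x ∈ t, V x, isClopen_biUnion_finset (fun x hx => hV x (ht x hx)), hcov,
    Set.iUnion₂_subset (fun x hx => hVO x (ht x hx))⟩

variable {G p}

section tests

variable [T2Space K] (hI : InvGoal.{u}) (hC : PCongrGoal.{u}) (hM : ValidMonoGoal.{u})
variable (a : Wd G.L p.R → Option (Option (Fin p.r))) (j : ℕ) (c : Fin p.r) {φ₀ : K}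

include hI hC

/-- All values entering the tests, on the transported sets. -/
lemma continuousAt_val (b : Bool) (oc : Option (Option (Fin p.r))) (t : ℝ) {F : Finset K}
    (hF : F ⊆ Mss2.nball G.nbhd p.R φ₀) :
    ContinuousAt (fun φ => P (Reg.sgn b G.x)
      (oc.elim (colOf (stOf G p p.R a φ)) (Function.update (colOf (stOf G p p.R a φ)) φ))
      (F.image (tr G p.R φ₀ φ)) (fun u => ylev p (p.lev j) (stOf G p p.R a φ) u + t)) φ₀ := by
  rcases oc with _ | oc
  · refine (continuousAt_congr ?_).2 (continuousAt_pat a hI hC b j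
      (colOf (stOf G p p.R a φ₀) φ₀) t hF)
    filter_upwards [eventually_sameWords G p.R φ₀] with φ h
    have e : colOf (stOf G p p.R a φ) φ = colOf (stOf G p p.R a φ₀) φ₀ := by
      have h2 := h.stOf_eq a (mem_self_ball G p φ₀)
      rw [h.tr_centre] at h2
      exact congrArg Option.join h2
    unfold pat
    rw [← e, Function.update_eq_self]
    rfl
  · exact continuousAt_pat a hI hC b j oc t hF

lemma continuousAt_aval (b : Bool) (t : ℝ)
    (hne : P (Reg.sgn b G.x) (Function.update (colOf (stOf G p p.R a φ₀)) φ₀ (some c))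
      ((ball p G.nbhd φ₀ (stOf G p p.R a φ₀)).erase φ₀)
      (fun u => ylev p (p.lev j) (stOf G p p.R a φ₀) u + t) ≠ 0) :
    ContinuousAt (fun φ => aval (Reg.sgn b G.x)
      (Function.update (colOf (stOf G p p.R a φ)) φ (some c))
      (ball p G.nbhd φ (stOf G p p.R a φ)) φ
      (fun u => ylev p (p.lev j) (stOf G p p.R a φ) u + t)) φ₀ := by
  set B := ball p G.nbhd φ₀ (stOf G p p.R a φ₀) with hB
  have hBs : B ⊆ Mss2.nball G.nbhd p.R φ₀ := filter_subset _ _
  have h0 : SameWords G p.R φ₀ φ₀ := fun _ _ => Iff.rfl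
  have heq : ∀ᶠ φ in 𝓝 φ₀, aval (Reg.sgn b G.x)
      (Function.update (colOf (stOf G p p.R a φ)) φ (some c))
      (ball p G.nbhd φ (stOf G p p.R a φ)) φ
      (fun u => ylev p (p.lev j) (stOf G p p.R a φ) u + t)
      = ylev p (p.lev j) (stOf G p p.R a φ₀) φ₀ + t
        - P (Reg.sgn b G.x) (Function.update (colOf (stOf G p p.R a φ)) φ (some c))
            (B.image (tr G p.R φ₀ φ)) (fun u => ylev p (p.lev j) (stOf G p p.R a φ) u + t)
          / P (Reg.sgn b G.x) (Function.update (colOf (stOf G p p.R a φ)) φ (some c))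
            ((B.erase φ₀).image (tr G p.R φ₀ φ))
            (fun u => ylev p (p.lev j) (stOf G p p.R a φ) u + t) := by
    filter_upwards [eventually_sameWords G p.R φ₀] with φ h
    have he : (B.erase φ₀).image (tr G p.R φ₀ φ) = (B.image (tr G p.R φ₀ φ)).erase φ := by
      ext u
      simp only [mem_image, mem_erase]
      constructor
      · rintro ⟨w, ⟨hne', hw⟩, rfl⟩
        exact ⟨fun e => hne' (h.injOn (mem_coe.2 (hBs hw)) (mem_coe.2 (mem_self_ball G p φ₀))
          (e.trans h.tr_centre.symm)), w, hw, rfl⟩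
      · rintro ⟨hne', w, hw, rfl⟩
        exact ⟨w, ⟨fun e => hne' (e ▸ h.tr_centre), hw⟩, rfl⟩
    have h2 := h.stOf_eq a (mem_self_ball G p φ₀)
    rw [h.tr_centre] at h2
    unfold aval
    rw [he, h.ball_eq a]
    congr 1
    exact congrArg (fun o : Option (Option (Fin p.r)) =>
      p.lev j + (if (Option.join o).isSome = true then p.shiftS else 0) + t) h2
  refine (continuousAt_congr heq).2 (continuousAt_const.sub (ContinuousAt.div
    (continuousAt_val hI hC a j b (some (some c)) t hBs)
    (continuousAt_val hI hC a j b (some (some c)) t ((erase_subset _ _).trans hBs)) ?_))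
  have himg : (B.erase φ₀).image (tr G p.R φ₀ φ₀) = B.erase φ₀ := by
    conv_rhs => rw [← image_id (s := B.erase φ₀)]
    exact image_congr fun u hu => repW_spec G (hBs (mem_of_mem_erase (mem_coe.1 hu)))
  rw [himg]
  exact hne

lemma continuousAt_P0 (b : Bool) {F : Finset K} (hF : F ⊆ Mss2.nball G.nbhd p.R φ₀) :
    ContinuousAt (fun φ => P (Reg.sgn b G.x) (colOf (stOf G p p.R a φ))
      (F.image (tr G p.R φ₀ φ)) (ylev p (p.lev j) (stOf G p p.R a φ))) φ₀ := by
  simpa using continuousAt_val hI hC a j b none 0 hF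

omit [T2Space K] hI hC in
lemma image_tr_self {F : Finset K} (hF : F ⊆ Mss2.nball G.nbhd p.R φ₀) :
    F.image (tr G p.R φ₀ φ₀) = F := by
  conv_rhs => rw [← image_id (s := F)]
  exact image_congr fun u hu => repW_spec G (hF (mem_coe.1 hu))

include hM

/-- Both quotients are continuous at a valid pattern. -/
lemma continuousAt_tests (hp : p.Ok) (b : Bool)
    (hv : Valid (Reg.sgn b G.x) (colOf (stOf G p p.R a φ₀))
      (ball p G.nbhd φ₀ (stOf G p p.R a φ₀)) (ylev p (p.lev j) (stOf G p p.R a φ₀))) :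
    ContinuousAt (fun φ => aval (Reg.sgn b G.x)
      (Function.update (colOf (stOf G p p.R a φ)) φ (some c))
      (ball p G.nbhd φ (stOf G p p.R a φ)) φ (ylev p (p.lev j) (stOf G p p.R a φ))) φ₀ ∧
    ContinuousAt (fun φ => dval p (Reg.sgn b G.x)
      (Function.update (colOf (stOf G p p.R a φ)) φ (some c))
      (ball p G.nbhd φ (stOf G p p.R a φ)) φ (ylev p (p.lev j) (stOf G p p.R a φ))) φ₀ := by
  have : NeZero p.r := ⟨by have := hp.r_ge; omega⟩
  have hg : 0 ≤ p.g := by
    unfold Prm.g Prm.Y0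
    positivity
  have hne : ∀ t : ℝ, 0 ≤ t →
      P (Reg.sgn b G.x) (Function.update (colOf (stOf G p p.R a φ₀)) φ₀ (some c))
        ((ball p G.nbhd φ₀ (stOf G p p.R a φ₀)).erase φ₀)
        (fun u => ylev p (p.lev j) (stOf G p p.R a φ₀) u + t) ≠ 0 := by
    intro t ht
    rw [hC _ _ (colOf (stOf G p p.R a φ₀)) _ _ _
      (fun u hu => Function.update_of_ne (ne_of_mem_erase hu) _ _) (fun u _ => rfl)]
    exact (hM _ _ _ _ _ _ (kern_sgn (kern_model G) b) hv (erase_subset _ _)
      (fun u _ => le_add_of_nonneg_right ht) _ subset_rfl).ne'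
  have h1 := continuousAt_aval hI hC a j c b 0 (hne 0 le_rfl)
  have h2 := continuousAt_aval hI hC a j c b p.g (hne _ hg)
  simp only [add_zero] at h1
  exact ⟨h1, h1.sub h2⟩

lemma isOpen_openTest (hp : p.Ok) :
    IsOpen {φ | OpenTest p G.x G.nbhd j (stOf G p p.R a φ) φ c} := by
  rw [isOpen_iff_mem_nhds]
  intro φ₀ h0
  change ∀ᶠ φ in 𝓝 φ₀, OpenTest p G.x G.nbhd j (stOf G p p.R a φ) φ c
  refine eventually_all.2 fun b => ?_
  obtain ⟨hv, h1, h2⟩ := h0 b
  obtain ⟨c1, c2⟩ := continuousAt_tests hI hC hM a j c hp b hv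
  refine Eventually.and ?_ ((c1.eventually_lt continuousAt_const h1).and
    (c2.eventually_lt continuousAt_const h2))
  set B := ball p G.nbhd φ₀ (stOf G p p.R a φ₀) with hB
  have hBs : B ⊆ Mss2.nball G.nbhd p.R φ₀ := filter_subset _ _
  have hall : ∀ᶠ φ in 𝓝 φ₀, ∀ F ∈ B.powerset, 0 < P (Reg.sgn b G.x)
      (colOf (stOf G p p.R a φ)) (F.image (tr G p.R φ₀ φ))
      (ylev p (p.lev j) (stOf G p p.R a φ)) := by
    refine (eventually_all_finset _).2 fun F hF => ?_
    have hFs := (mem_powerset.1 hF).trans hBs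
    refine continuousAt_const.eventually_lt (continuousAt_P0 hI hC a j b hFs) ?_
    rw [image_tr_self hFs]
    exact hv F (mem_powerset.1 hF)
  filter_upwards [hall, eventually_sameWords G p.R φ₀] with φ hφ h F hF
  rw [h.ball_eq a, ← hB] at hF
  obtain ⟨F0, hF0, rfl⟩ := subset_image_iff.1 hF
  exact hφ F0 (mem_powerset.2 hF0)

lemma isClosed_strongTest (hp : p.Ok) :
    IsClosed {φ | StrongTest p G.x G.nbhd j (stOf G p p.R a φ) φ c} := by
  rw [← isOpen_compl_iff, isOpen_iff_mem_nhds]
  intro φ₀ h0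
  obtain ⟨b, hb⟩ := not_forall.1 (h0 : ¬ StrongTest p G.x G.nbhd j (stOf G p p.R a φ₀) φ₀ c)
  change ∀ᶠ φ in 𝓝 φ₀, ¬ StrongTest p G.x G.nbhd j (stOf G p p.R a φ) φ c
  set B := ball p G.nbhd φ₀ (stOf G p p.R a φ₀) with hB
  have hBs : B ⊆ Mss2.nball G.nbhd p.R φ₀ := filter_subset _ _
  by_cases hq : ∀ F ⊆ B, (p.g / 8) ^ F.card
      ≤ P (Reg.sgn b G.x) (colOf (stOf G p p.R a φ₀)) F (ylev p (p.lev j) (stOf G p p.R a φ₀))
  · have hg : 0 < p.g / 8 := by
      have h1 : (0 : ℝ) < p.r := by exact_mod_cast (show 0 < p.r by have := hp.r_ge; omega)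
      have h2 : (0 : ℝ) < p.J := by exact_mod_cast (show 0 < p.J by have := hp.J_ge; omega)
      unfold Prm.g Prm.Y0
      positivity
    have hv : Valid (Reg.sgn b G.x) (colOf (stOf G p p.R a φ₀)) B
        (ylev p (p.lev j) (stOf G p p.R a φ₀)) := fun F hF => (pow_pos hg _).trans_le (hq F hF)
    obtain ⟨c1, c2⟩ := continuousAt_tests hI hC hM a j c hp b hv
    rcases not_and_or.1 (fun h => hb ⟨hq, h⟩) with h1 | h2
    · exact (continuousAt_const.eventually_lt c1 (not_le.1 h1)).mono
        fun φ h hs => absurd (hs b).2.1 (not_le.2 h)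
    · exact (continuousAt_const.eventually_lt c2 (not_le.1 h2)).mono
        fun φ h hs => absurd (hs b).2.2 (not_le.2 h)
  · push Not at hq
    obtain ⟨F, hF, hlt⟩ := hq
    have hFs := hF.trans hBs
    have hev := (continuousAt_P0 hI hC a j b hFs).eventually_lt continuousAt_const
      (show _ < (p.g / 8) ^ F.card by rw [image_tr_self hFs]; exact hlt)
    filter_upwards [hev, eventually_sameWords G p.R φ₀] with φ hφ h hs
    have := (hs b).1 (F.image (tr G p.R φ₀ φ)) (by
      rw [h.ball_eq a]; exact image_subset_image hF)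
    rw [card_image_of_injOn (h.injOn.mono (by simpa using hFs))] at this
    linarith

end tests

/-- **The allowed colours.** -/
theorem exists_oracle [CompactSpace K] [T2Space K] [TotallySeparatedSpace K] (hI : InvGoal.{u})
    (hC : PCongrGoal.{u}) (hM : ValidMonoGoal.{u}) (hN : CountGoal.{u}) (hp : p.Ok)
    [NeZero p.r] :
    ∃ O : Oracle K p, Sound p G.x G.nbhd O ∧ OLocal p G.nbhd O ∧ OShift p O ∧ OLc G p O := by
  classical
  have hset : ∀ (j : ℕ) (a : Wd G.L p.R → Option (Option (Fin p.r))), ∃ U : Set K, IsClopen U ∧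
      {φ | StrongTest p G.x G.nbhd j (stOf G p p.R a φ) φ 0} ⊆ U ∧
      U ⊆ {φ | OpenTest p G.x G.nbhd j (stOf G p p.R a φ) φ 0} := fun j a =>
    exists_clopen_between (isClosed_strongTest hI hC hM a j 0 hp)
      (isOpen_openTest hI hC hM a j 0 hp) (fun φ hφ => StrongTest.openTest hp hφ)
  choose U hUc hUl hUu using hset
  set sel : ℕ → St K p.r → K → Finset (Fin p.r) := fun j st φ =>
    univ.filter fun c => φ ∈ U j (fun w => shiftSt p (-c) st (act G.h w.1 φ)) with hsel
  -- the shifted state and its pattern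
  have hagree : ∀ (st : St K p.r) (φ : K) (c : Fin p.r),
      Agree p G.x G.nbhd φ (shiftSt p (-c) st)
        (stOf G p p.R (fun w => shiftSt p (-c) st (act G.h w.1 φ)) φ) 0 0 := fun st φ c =>
    agree_of_eq hC (mem_self_ball G p φ) (fun u hu =>
      (congrArg (shiftSt p (-c) st) (repW_spec G hu)).symm) 0
  have hshift : ∀ (st : St K p.r) (φ : K) (c : Fin p.r),
      Agree p G.x G.nbhd φ st (shiftSt p (-c) st) c 0 := fun st φ c => by
    have := agree_shift (x := G.x) (nb := G.nbhd) (v := φ) hI (-c) st c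
    rwa [add_neg_cancel] at this
  have hstrong : ∀ j st φ c, StrongTest p G.x G.nbhd j st φ c → c ∈ sel j st φ := by
    intro j st φ c hs
    refine mem_filter.2 ⟨mem_univ _, hUl _ _ ?_⟩
    exact (hagree st φ c).strong_iff.2 ((hshift st φ c).strong_iff.2 hs)
  have hweak : ∀ j st φ c, c ∈ sel j st φ → WeakTest p G.x G.nbhd j st φ c := by
    intro j st φ c hc
    have := OpenTest.weak (hUu _ _ (mem_filter.1 hc).2)
    exact (hshift st φ c).weak_iff.1 ((hagree st φ c).weak_iff.1 this)
  refine ⟨fun j st φ => if p.r ≤ 2 * (sel j st φ).card then sel j st φ else ∅,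
    ⟨fun j st φ _ c hc => ?_, fun j st φ hne => ?_, fun j st φ hj hst hm => ?_⟩, ?_, ?_, ?_⟩
  · split at hc
    · exact hweak j st φ c hc
    · simp at hc
  · split at hne
    · rename_i h
      rwa [if_pos h]
    · simp at hne
  · have h := hN p hp G.x G.nbhd (kern_model G) (band_model G) j st φ hj hst hm (sel j st φ)
      (hstrong j st φ)
    rw [if_pos h]
    have := hp.r_ge
    exact card_pos.1 (by omega)
  · intro j st st' φ hst
    have : sel j st φ = sel j st' φ := by
      refine filter_congr fun c _ => ?_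
      have e : (fun w : Wd G.L p.R => shiftSt p (-c) st (act G.h w.1 φ))
          = fun w => shiftSt p (-c) st' (act G.h w.1 φ) := by
        funext w
        unfold shiftSt
        rw [hst _ (act_mem_ball G φ w)]
      rw [e]
    dsimp only
    rw [this]
  · intro k j st φ
    have hs : sel j (shiftSt p k st) φ = (sel j st φ).image (· + k) := by
      ext c
      simp only [sel, mem_filter, mem_univ, true_and, mem_image]
      constructor
      · intro hc
        refine ⟨c - k, ?_, sub_add_cancel _ _⟩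
        rwa [shiftSt_shiftSt, ← sub_eq_add_neg, ← neg_sub] at hc
      · rintro ⟨d, hd, rfl⟩
        rwa [shiftSt_shiftSt, neg_add_rev, ← add_assoc, add_neg_cancel, zero_add]
    dsimp only
    rw [hs, card_image_of_injective _ (add_left_injective k)]
    split <;> simp
  · intro j φ₀
    have hev : ∀ᶠ φ in 𝓝 φ₀, ∀ a, (φ ∈ U j a ↔ φ₀ ∈ U j a) := by
      refine eventually_all.2 fun a => ?_
      by_cases h : φ₀ ∈ U j a
      · filter_upwards [(hUc j a).isOpen.mem_nhds h] with φ hφ; exact iff_of_true hφ h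
      · filter_upwards [(hUc j a).compl.isOpen.mem_nhds h] with φ hφ; exact iff_of_false hφ h
    filter_upwards [hev] with φ hφ st st' hst
    have : sel j st' φ = sel j st φ₀ := by
      refine filter_congr fun c _ => ?_
      have e : (fun w : Wd G.L p.R => shiftSt p (-c) st' (act G.h w.1 φ))
          = fun w => shiftSt p (-c) st (act G.h w.1 φ₀) := by
        funext w
        unfold shiftSt
        rw [hst w]
      rw [e]
      exact hφ _
    rw [this]

end Vale.Agent.P078.TypeIII.Rule
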