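import Vale.Agent.P078.TypeIII.Rule.Oracle

/-!
# The process around a point is locally constant in the point
-/

namespace Vale.Agent.P078.TypeIII.Rule

open Finset Filter Topology
open Vale.Agent.P078.Transfer Vale.Agent.P078.TypeIII.Reg

universe u

lemma mem_words_iff {L : ℕ} : ∀ {N : ℕ} {w : List (Fin L)}, w ∈ words L N ↔ w.length ≤ N
  | 0, w => by simp [words]
  | N + 1, w => by
    simp only [words, List.mem_append, List.mem_flatMap, List.mem_map, List.mem_finRange, true_and,
      mem_words_iff (N := N)]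
    constructor
    · rintro (h | ⟨v, hv, i, rfl⟩)
      · omega
      · simp; omega
    · intro h
      rcases Nat.lt_or_ge N w.length with hl | hl
      · right
        have hne : w ≠ [] := by rintro rfl; simp at hl
        exact ⟨w.dropLast, by simp; omega, w.getLast hne, List.dropLast_append_getLast hne⟩
      · exact Or.inl hl

variable {K : Type u} [TopologicalSpace K] [DecidableEq K] (G : GraphModel K) (p : Prm)

/-- The radius within which the rule reads seeds. -/
def rad : ℕ := p.T * (2 * p.ρ + p.R)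

/-- A chosen word of the rule leading from `ψ` to `u`. -/
noncomputable def seedWord (ψ u : K) : Wd G.L (rad p) := repW G (rad p) ψ u

/-- Step of two processes along corresponding words. -/
lemma step_transport {O : Oracle K p} {j : ℕ} {φ₀ φ : K} {w : List (Fin G.L)}
    (hO : ∀ st st' : St K p.r, (∀ v : Wd G.L p.R,
      st' (act G.h v.1 (act G.h w φ)) = st (act G.h v.1 (act G.h w φ₀))) →
      O j st' (act G.h w φ) = O j st (act G.h w φ₀))
    {st st' : St K p.r} {ω ω' : K → Option (Seed p)}
    (hst : ∀ v : List (Fin G.L), v.length ≤ p.R →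
      st' (act G.h (w ++ v) φ) = st (act G.h (w ++ v) φ₀))
    (hω : ∀ v : List (Fin G.L), v.length ≤ 2 * p.ρ →
      ω' (act G.h (w ++ v) φ) = ω (act G.h (w ++ v) φ₀))
    (heq : ∀ v : List (Fin G.L), v.length ≤ 2 * p.ρ →
      (act G.h (w ++ v) φ = act G.h w φ ↔ act G.h (w ++ v) φ₀ = act G.h w φ₀)) :
    step p G.nbhd O j st' ω' (act G.h w φ) = step p G.nbhd O j st ω (act G.h w φ₀) := by
  have h0 : st' (act G.h w φ) = st (act G.h w φ₀) := by simpa using hst [] (by simp)
  have hω0 : ω' (act G.h w φ) = ω (act G.h w φ₀) := by simpa using hω [] (by simp)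
  have hiff : ((Mss2.nball G.nbhd (2 * p.ρ) (act G.h w φ)).erase (act G.h w φ)).filter
        (fun u => fire p ω' u = true) = ∅
      ↔ ((Mss2.nball G.nbhd (2 * p.ρ) (act G.h w φ₀)).erase (act G.h w φ₀)).filter
        (fun u => fire p ω u = true) = ∅ := by
    have key : ∀ (χ : K) (ζ : K → Option (Seed p)),
        ((Mss2.nball G.nbhd (2 * p.ρ) (act G.h w χ)).erase (act G.h w χ)).filter
          (fun u => fire p ζ u = true) = ∅
        ↔ ∀ v : List (Fin G.L), v.length ≤ 2 * p.ρ → act G.h (w ++ v) χ ≠ act G.h w χ →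
          fire p ζ (act G.h (w ++ v) χ) ≠ true := by
      intro χ ζ
      rw [filter_eq_empty_iff]
      constructor
      · intro h v hv hne
        refine h (mem_erase.2 ⟨hne, (mem_ball2_iff G _).2 ⟨v, mem_words_iff.2 hv, ?_⟩⟩)
        rw [act_append]
      · intro h u hu
        obtain ⟨hne, hu⟩ := mem_erase.1 hu
        obtain ⟨v, hv, rfl⟩ := (mem_ball2_iff G _).1 hu
        rw [← act_append] at hne ⊢
        exact h v (mem_words_iff.1 hv) hne
    rw [key, key]
    refine forall₂_congr fun v hv => ?_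
    rw [fire, fire, hω v hv]
    exact imp_congr (not_congr (heq v hv)) Iff.rfl
  have hfire : fire p ω' (act G.h w φ) = fire p ω (act G.h w φ₀) := by rw [fire, fire, hω0]
  have hacts : acts p G.nbhd ω' (act G.h w φ) = acts p G.nbhd ω (act G.h w φ₀) := by
    unfold acts
    rw [hfire]
    exact congrArg _ (decide_eq_decide.2 hiff)
  have hOeq : O j st' (act G.h w φ) = O j st (act G.h w φ₀) := hO st st' fun v => by
    have := hst v.1 (mem_words_iff.1 (List.mem_toFinset.1 v.2))
    rwa [act_append, act_append] at this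
  unfold step
  rw [h0, hacts, hOeq, hω0]

/-- The seeds of a pattern around `ψ`, as seeds of the slots. -/
noncomputable def seqOf {α : Type} (e : α → (Fin p.T → Seed p)) (σ : K → α) (t : ℕ) (u : K) :
    Option (Seed p) :=
  if h : t < p.T then some (e (σ u) ⟨t, h⟩) else none

lemma eventually_state [T2Space K] {O : Oracle K p} (hO : OLc G p O) {α : Type}
    (e : α → (Fin p.T → Seed p)) (φ₀ : K) :
    ∀ᶠ φ in 𝓝 φ₀, ∀ κ : Wd G.L (rad p) → α,
      iter p G.nbhd O (seqOf p e fun u => κ (seedWord G p φ u)) p.T φ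
        = iter p G.nbhd O (seqOf p e fun u => κ (seedWord G p φ₀ u)) p.T φ₀ := by
  have h1 : ∀ᶠ φ in 𝓝 φ₀, SameWords G (rad p) φ₀ φ := eventually_sameWords G _ φ₀
  have h2 : ∀ᶠ φ in 𝓝 φ₀, ∀ (t : Fin p.T) (w : Wd G.L (rad p)), ∀ st st' : St K p.r,
      (∀ v : Wd G.L p.R,
        st' (act G.h v.1 (act G.h w.1 φ)) = st (act G.h v.1 (act G.h w.1 φ₀))) →
      O (t.1 / p.S) st' (act G.h w.1 φ) = O (t.1 / p.S) st (act G.h w.1 φ₀) :=
    eventually_all.2 fun t => eventually_all.2 fun w =>
      (act_continuous G w.1).continuousAt.eventually (hO (t.1 / p.S) (act G.h w.1 φ₀))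
  filter_upwards [h1, h2] with φ hsame hOeq κ
  set D := 2 * p.ρ + p.R with hD
  have hmem : ∀ w : List (Fin G.L), w.length ≤ rad p → w ∈ (words G.L (rad p)).toFinset :=
    fun w hw => List.mem_toFinset.2 (mem_words_iff.2 hw)
  have hseed : ∀ (w : List (Fin G.L)), w.length ≤ rad p →
      κ (seedWord G p φ (act G.h w φ)) = κ (seedWord G p φ₀ (act G.h w φ₀)) := by
    intro w hw
    have e1 := hsame.tr_act ⟨w, hmem w hw⟩
    have e2 := hsame.repW_eq (act_mem_ball G φ₀ ⟨w, hmem w hw⟩)
    rw [e1] at e2
    exact congrArg κ e2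
  have main : ∀ t, t ≤ p.T → ∀ w : List (Fin G.L), w.length + t * D ≤ rad p →
      iter p G.nbhd O (seqOf p e fun u => κ (seedWord G p φ u)) t (act G.h w φ)
        = iter p G.nbhd O (seqOf p e fun u => κ (seedWord G p φ₀ u)) t (act G.h w φ₀) := by
    intro t
    induction t with
    | zero => intros; rfl
    | succ t ih =>
      intro ht w hw
      rw [Nat.succ_mul] at hw
      have hwr : w.length ≤ rad p := by omega
      refine step_transport G p (fun st st' h => hOeq ⟨t, by omega⟩ ⟨w, hmem w hwr⟩ st st' h)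
        (fun v hv => ih (by omega) (w ++ v) (by simp; omega)) (fun v hv => ?_) (fun v hv => ?_)
      · have hlen : (w ++ v).length ≤ rad p := by simp; omega
        simp only [seqOf, dif_pos (show t < p.T by omega), hseed _ hlen]
      · have hlen : (w ++ v).length ≤ rad p := by simp; omega
        exact hsame ⟨w ++ v, hmem _ hlen⟩ ⟨w, hmem w hwr⟩
  exact main p.T le_rfl [] (by simp [rad, hD])

end Vale.Agent.P078.TypeIII.Rule
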